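import Mathlib

/-!
# P014T: the two-adic logarithm on the open disc and on elements with a power in `2 ^ ℤ (1 + m)`
-/

set_option autoImplicit false

open Filter Topology IsUltrametricDist

noncomputable section

namespace Vale.Agent.P014T.Sb

variable {C : Type} [NormedField C]

/-- the logarithm series -/
def lgs (x : C) : C := -∑' k : ℕ, (1 - x) ^ k / k

/-- elements with a power in `2 ^ ℤ (1 + m)` -/
def Gd (x : C) : Prop := ∃ p : ℕ × ℤ, 0 < p.1 ∧ ‖1 - x ^ p.1 / 2 ^ p.2‖ < 1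

open Classical in
/-- the logarithm with `Lg 2 = 0` -/
def Lg (x : C) : C :=
  if h : Gd x then lgs (x ^ h.choose.1 / 2 ^ h.choose.2) / h.choose.1 else 0

theorem lgs_one : lgs (1 : C) = 0 := by
  rw [lgs, neg_eq_zero, sub_self]
  exact (tsum_congr fun k => by cases k <;> simp).trans tsum_zero

variable [IsUltrametricDist C] {x y : C}

theorem nadd {r : ℝ} (a : ‖x‖ ≤ r) (b : ‖y‖ ≤ r) : ‖x + y‖ ≤ r :=
  (norm_add_le_max x y).trans (max_le a b)

theorem nadd' {r : ℝ} (a : ‖x‖ < r) (b : ‖y‖ < r) : ‖x + y‖ < r :=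
  (norm_add_le_max x y).trans_lt (max_lt a b)

theorem n_one (h : ‖1 - x‖ < 1) : ‖x‖ = 1 := by
  have := norm_add_eq_max_of_norm_ne_norm (x := 1) (y := -(1 - x)) (by simpa [norm_sub_rev] using h.ne')
  rwa [norm_neg, norm_one, max_eq_left h.le, show 1 + -(1 - x) = x by ring] at this

theorem ne_of_near (h : ‖1 - x‖ < 1) : x ≠ 0 := norm_ne_zero_iff.1 (by simp [n_one h])

theorem near_mul (h : ‖1 - x‖ < 1) (k : ‖1 - y‖ < 1) : ‖1 - x * y‖ < 1 := by
  rw [show 1 - x * y = 1 - x + x * (1 - y) by ring]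
  exact nadd' h (by rwa [norm_mul, n_one h, one_mul])

theorem near_pow (h : ‖1 - x‖ < 1) (n : ℕ) : ‖1 - x ^ n‖ < 1 := by
  induction n with
  | zero => simp
  | succ n ih => exact pow_succ x n ▸ near_mul ih h

theorem near_prod {ι : Type} {T : Finset ι} {f : ι → C} (h : ∀ i ∈ T, ‖1 - f i‖ < 1) :
    ‖1 - ∏ i ∈ T, f i‖ < 1 :=
  Finset.prod_induction f (fun x => ‖1 - x‖ < 1) (fun _ _ => near_mul) (by simp) h

variable (h2 : ‖(2 : C)‖ = 1 / 2)
include h2

theorem n_odd {m : ℕ} (h : Odd m) : ‖(m : C)‖ = 1 := by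
  obtain ⟨k, rfl⟩ := h
  refine n_one ?_
  rw [show (1 : C) - (2 * k + 1 : ℕ) = -(2 * k) by push_cast; ring, norm_neg, norm_mul, h2]
  linarith [norm_natCast_le_one C k]

theorem n_inv (k : ℕ) : ‖(k : C)⁻¹‖ ≤ k := by
  rcases k.eq_zero_or_pos with rfl | hk
  · simp
  obtain ⟨a, m, hm, rfl⟩ := Nat.exists_eq_two_pow_mul_odd hk.ne'
  push_cast
  rw [norm_inv, norm_mul, norm_pow, h2, n_odd h2 hm, mul_one, one_div, inv_pow, inv_inv]
  exact le_mul_of_one_le_right (by positivity) (by exact_mod_cast hm.pos)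

theorem n_term {c : C} (hc : ‖c‖ ≤ 1) (k : ℕ) : ‖c * x ^ k / k‖ ≤ k * ‖x‖ ^ k := by
  rw [div_eq_mul_inv, norm_mul, norm_mul, norm_pow, mul_comm]
  exact mul_le_mul (n_inv h2 k) (mul_le_of_le_one_left (by positivity) hc) (by positivity)
    (by positivity)

omit [IsUltrametricDist C] in
theorem two_lim : Tendsto (fun a : ℕ => (2 : C) ^ a) atTop (𝓝 0) :=
  tendsto_pow_atTop_nhds_zero_of_norm_lt_one (by rw [h2]; norm_num)

omit [IsUltrametricDist C] h2 in
theorem sm_geo (h : ‖x‖ < 1) : Summable fun k : ℕ => k * ‖x‖ ^ k := by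
  simpa using summable_pow_mul_geometric_of_norm_lt_one 1 (r := ‖x‖) (by simpa using h)

variable [CompleteSpace C]

theorem sm_term {c : ℕ → C} (hc : ∀ k, ‖c k‖ ≤ 1) (h : ‖x‖ < 1) :
    Summable fun k : ℕ => c k * x ^ k / k :=
  (sm_geo h).of_norm_bounded fun k => n_term h2 (hc k) k

theorem lgs_near (h : ‖x - 1‖ ≤ 1 / 4) : ‖lgs x - (x - 1)‖ ≤ ‖(x - 1) ^ 2 / 2‖ := by
  have n : ‖1 - x‖ = ‖x - 1‖ := norm_sub_rev _ _
  have s : Summable fun k : ℕ => (1 - x) ^ k / k := by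
    simpa using sm_term h2 (c := fun _ => 1) (by simp) (x := 1 - x) (by linarith)
  rw [lgs, ← s.sum_add_tsum_nat_add 2]
  simp only [Finset.sum_range_succ, Finset.sum_range_zero, Nat.cast_zero, div_zero, Nat.cast_one]
  rw [show ∀ z : C, -(0 + 0 + (1 - x) ^ 1 / 1 + z) - (x - 1) = -z from fun z => by ring, norm_neg,
    norm_div, norm_pow, h2]
  refine norm_tsum_le_of_forall_le fun k => ?_
  have := n_term h2 (x := 1 - x) norm_one.le (k + 2)
  rw [one_mul, n, pow_add ‖x - 1‖] at this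
  have e : ((k + 2 : ℕ) : ℝ) * ‖x - 1‖ ^ k ≤ 2 := by
    have : ((k + 2 : ℕ) : ℝ) ≤ 2 * 4 ^ k := by
      exact_mod_cast (by have := @Nat.lt_pow_self k 4 (by norm_num); omega : k + 2 ≤ 2 * 4 ^ k)
    refine (mul_le_mul this (pow_le_pow_left₀ (norm_nonneg _) h k) (by positivity)
      (by positivity)).trans_eq ?_
    rw [mul_assoc, ← mul_pow]
    norm_num
  nlinarith [sq_nonneg ‖x - 1‖]

variable [CharZero C]

omit [IsUltrametricDist C] [CompleteSpace C] in
theorem ch_lim (k : ℕ) :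
    Tendsto (fun a : ℕ => ((2 ^ a - 1).choose k : C)) atTop (𝓝 ((-1) ^ k)) := by
  induction k with
  | zero => simp
  | succ k ih =>
    have k0 : (k + 1 : C) ≠ 0 := by exact_mod_cast k.succ_ne_zero
    have := (ih.mul (((two_lim h2).sub_const 1).sub_const (k : C))).div_const (k + 1)
    rw [show (-1) ^ k * (0 - 1 - k) / (k + 1) = (-1 : C) ^ (k + 1) by field_simp; ring] at this
    refine this.congr' ((eventually_ge_atTop k).mono fun a ha => ?_)
    have l : k ≤ 2 ^ a - 1 := by have := @Nat.lt_two_pow_self a; omega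
    have e := congrArg (Nat.cast (R := C)) ((2 ^ a - 1).choose_succ_right_eq k)
    push_cast [Nat.cast_sub l, Nat.cast_sub Nat.one_le_two_pow] at e
    rw [← e, mul_div_cancel_right₀ _ k0]

theorem lgs_lim (h : ‖1 - x‖ < 1) :
    Tendsto (fun a : ℕ => (x ^ 2 ^ a - 1) / 2 ^ a) atTop (𝓝 (lgs x)) := by
  have := tendsto_tsum_of_dominated_convergence (𝓕 := atTop) (sm_geo h)
    (f := fun a k : ℕ => ((2 ^ a - 1).choose (k - 1) : C) * (-1) ^ k * (1 - x) ^ k / k)
    (g := fun k => -((1 - x) ^ k / k)) (fun k => ?_) (.of_forall fun a k => n_term h2 ?_ k)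
  · rw [tsum_neg] at this
    refine this.congr fun a => ?_
    obtain ⟨N, e⟩ : ∃ N, 2 ^ a = N + 1 := ⟨2 ^ a - 1, by have := @Nat.one_le_two_pow a; omega⟩
    have N0 : (N + 1 : C) ≠ 0 := by exact_mod_cast N.succ_ne_zero
    rw [show (2 : C) ^ a = N + 1 by exact_mod_cast e, e, tsum_eq_sum (s := Finset.range (N + 1 + 1))
      fun k hk => by rw [Nat.choose_eq_zero_of_lt (by simp at hk ⊢; omega)]; simp,
      show x ^ (N + 1) = (-(1 - x) + 1) ^ (N + 1) by ring, add_pow, Finset.sum_range_succ',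
      Finset.sum_range_succ' _ (N + 1), eq_div_iff N0]
    simp only [Nat.cast_zero, div_zero, add_zero, one_pow, mul_one, pow_zero, Nat.choose_zero_right,
      Nat.cast_one, add_sub_cancel_right, Finset.sum_mul, Nat.add_sub_cancel]
    refine Finset.sum_congr rfl fun k _ => ?_
    have k0 : (k + 1 : C) ≠ 0 := by exact_mod_cast k.succ_ne_zero
    have e := congrArg (Nat.cast (R := C)) (N.add_one_mul_choose_eq k)
    push_cast at e ⊢
    rw [neg_pow (1 - x)]
    field_simp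
    linear_combination (1 - x) ^ (k + 1) * e
  · cases k with
    | zero => simp
    | succ k =>
      have := (((ch_lim h2 k).mul_const ((-1) ^ (k + 1))).mul_const ((1 - x) ^ (k + 1))).div_const
        ((k + 1 : ℕ) : C)
      rwa [← pow_add, (show Odd (k + (k + 1)) from ⟨k, by ring⟩).neg_one_pow, neg_one_mul,
        neg_div] at this
  · rw [norm_mul, norm_pow, norm_neg, norm_one, one_pow, mul_one]
    exact norm_natCast_le_one C _

theorem lgs_mul (h : ‖1 - x‖ < 1) (k : ‖1 - y‖ < 1) : lgs (x * y) = lgs x + lgs y := by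
  have t (a : ℕ) : (2 : C) ^ a ≠ 0 := pow_ne_zero _ two_ne_zero
  have e := ((lgs_lim h2 h).mul (((lgs_lim h2 k).mul (two_lim h2)).add_const 1)).add (lgs_lim h2 k)
  rw [mul_zero, zero_add, mul_one] at e
  exact tendsto_nhds_unique (lgs_lim h2 (near_mul h k)) (e.congr fun a => by
    rw [mul_pow]; field_simp; ring)

theorem lgs_pow (h : ‖1 - x‖ < 1) (n : ℕ) : lgs (x ^ n) = n * lgs x := by
  induction n with
  | zero => simp [lgs_one]
  | succ n ih => rw [pow_succ, lgs_mul h2 (near_pow h n) h, ih]; push_cast; ring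

theorem Lg_spec {N : ℕ} {k : ℤ} (h0 : 0 < N) (h : ‖1 - x ^ N / 2 ^ k‖ < 1) :
    N * Lg x = lgs (x ^ N / 2 ^ k) := by
  have g : Gd x := ⟨(N, k), h0, h⟩
  obtain ⟨p0, p1⟩ := g.choose_spec
  rw [Lg, dif_pos g]
  generalize g.choose.1 = N', g.choose.2 = k' at p0 p1
  have N0 : (N' : C) ≠ 0 := Nat.cast_ne_zero.2 p0.ne'
  have a := n_one (near_pow h N')
  have b := n_one (near_pow p1 N)
  rw [div_pow, ← pow_mul, ← zpow_natCast (_ ^ _ : C), ← zpow_mul, norm_div, div_eq_one_iff_eq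
    (norm_ne_zero_iff.2 (zpow_ne_zero _ two_ne_zero)), norm_zpow, h2] at a b
  rw [mul_comm, a, zpow_right_inj₀ (by norm_num) (by norm_num)] at b
  have e : (x ^ N' / 2 ^ k') ^ N = (x ^ N / 2 ^ k) ^ N' := by
    simp only [div_pow, ← pow_mul, ← zpow_natCast ((2 : C) ^ (_ : ℤ)), ← zpow_mul, b, mul_comm N]
  rw [mul_div_assoc', ← lgs_pow h2 p1, e, lgs_pow h2 h, mul_div_cancel_left₀ _ N0]

theorem Lg_near (h : ‖1 - x‖ < 1) : Gd x ∧ Lg x = lgs x :=
  ⟨⟨(1, 0), one_pos, by simpa using h⟩, by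
    simpa using Lg_spec h2 (x := x) (k := 0) one_pos (by simpa using h)⟩

theorem Lg_mul (h : Gd x) (k : Gd y) : Gd (x * y) ∧ Lg (x * y) = Lg x + Lg y := by
  obtain ⟨⟨N, a⟩, p0, p1⟩ := h
  obtain ⟨⟨N', b⟩, q0, q1⟩ := k
  have e : (x * y) ^ (N * N') / 2 ^ (a * N' + b * N) =
      (x ^ N / 2 ^ a) ^ N' * (y ^ N' / 2 ^ b) ^ N := by
    simp only [div_pow, ← pow_mul, ← zpow_natCast ((2 : C) ^ (_ : ℤ)), ← zpow_mul, mul_comm N' N,
      zpow_add₀ (two_ne_zero' C), mul_pow, div_mul_div_comm]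
  have n := e ▸ near_mul (near_pow p1 N') (near_pow q1 N)
  refine ⟨⟨(_, _), mul_pos p0 q0, n⟩, mul_left_cancel₀ (Nat.cast_ne_zero.2 (mul_pos p0 q0).ne') ?_⟩
  rw [Lg_spec h2 (mul_pos p0 q0) n, e, lgs_mul h2 (near_pow p1 _) (near_pow q1 _), lgs_pow h2 p1,
    lgs_pow h2 q1, ← Lg_spec h2 p0 p1, ← Lg_spec h2 q0 q1]
  push_cast
  ring

theorem Lg_one : Gd (1 : C) ∧ Lg (1 : C) = 0 := by
  simpa [lgs_one] using Lg_near h2 (x := 1) (by simp)

theorem Lg_prod {ι : Type} {T : Finset ι} {f : ι → C} (h : ∀ i ∈ T, Gd (f i)) :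
    Gd (∏ i ∈ T, f i) ∧ Lg (∏ i ∈ T, f i) = ∑ i ∈ T, Lg (f i) := by
  induction T using Finset.cons_induction with
  | empty => simpa using Lg_one h2
  | cons i T _ ih =>
    rw [Finset.forall_mem_cons] at h
    rw [Finset.prod_cons, Finset.sum_cons, ← (ih h.2).2]
    exact Lg_mul h2 h.1 (ih h.2).1

theorem Lg_pow (h : Gd x) (n : ℕ) : Gd (x ^ n) ∧ Lg (x ^ n) = n * Lg x := by
  simpa using Lg_prod h2 (T := Finset.range n) (f := fun _ => x) fun _ _ => h

omit h2 [IsUltrametricDist C] [CompleteSpace C] [CharZero C] in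
theorem Gd.root {n : ℕ} (h0 : 0 < n) (h : Gd (x ^ n)) : Gd x :=
  let ⟨p, p0, p1⟩ := h
  ⟨(n * p.1, p.2), mul_pos h0 p0, by rwa [pow_mul]⟩

theorem Lg_two : Gd (2 : C) ∧ Lg (2 : C) = 0 :=
  ⟨⟨(1, 1), one_pos, by simp⟩, by
    simpa [lgs_one] using Lg_spec h2 (x := 2) (k := 1) one_pos (by simp)⟩

omit h2

/-- every non zero two-adic number is good -/
theorem gd_padic {t : ℚ_[2]} (h : t ≠ 0) : Gd t := by
  refine ⟨(1, t.valuation), one_pos, ?_⟩
  have n : ‖t / 2 ^ t.valuation‖ = 1 := by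
    have := Padic.norm_p_zpow (p := 2) t.valuation
    rw [norm_div, Padic.norm_eq_zpow_neg_valuation h,
      div_eq_one_iff_eq (norm_ne_zero_iff.2 (zpow_ne_zero _ two_ne_zero))]
    exact this.symm
  have (c : ZMod 2) : c ≠ 0 → 1 - c = 0 := by revert c; decide
  let u : ℤ_[2] := ⟨_, n.le⟩
  have k : ¬ ‖u‖ < 1 := fun k => k.ne n
  rw [pow_one]
  change ‖1 - u‖ < 1
  rw [← PadicInt.mem_nonunits, ← IsLocalRing.mem_maximalIdeal, ← PadicInt.ker_toZMod,
    RingHom.mem_ker] at k ⊢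
  simpa using this _ k

variable {C' : Type} [NormedField C'] [IsUltrametricDist C'] [CompleteSpace C'] [CharZero C']
  (j : C →+* C') (hj : ∀ x, ‖j x‖ = ‖x‖)
include hj h2

omit [IsUltrametricDist C'] [CompleteSpace C'] [CharZero C'] [CharZero C] in
theorem lgs_map (h : ‖1 - x‖ < 1) : j (lgs x) = lgs (j x) := by
  have s : Summable fun k : ℕ => (1 - x) ^ k / k := by
    simpa using sm_term h2 (c := fun _ => 1) (by simp) h
  rw [lgs, map_neg, s.map_tsum j (AddMonoidHomClass.isometry_of_norm j hj).continuous]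
  simp [lgs]

theorem Lg_map (h : Gd x) : Gd (j x) ∧ j (Lg x) = Lg (j x) := by
  obtain ⟨⟨N, a⟩, p0, p1⟩ := h
  have e : j (x ^ N / 2 ^ a) = j x ^ N / 2 ^ a := by simp [map_ofNat]
  have n : ‖1 - j x ^ N / 2 ^ a‖ < 1 := by rwa [← e, ← map_one j, ← map_sub, hj]
  refine ⟨⟨(N, a), p0, n⟩, mul_left_cancel₀ (Nat.cast_ne_zero.2 p0.ne') ?_⟩
  rw [Lg_spec (by rw [← h2, ← hj, map_ofNat]) p0 n, ← e, ← lgs_map h2 j hj p1, ← Lg_spec h2 p0 p1,
    map_mul, map_natCast]

end Vale.Agent.P014T.Sb
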