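import Vale.Agent.P014T.Sb.Ev2
import Vale.Agent.P014T.Dr.St
import Vale.Agent.P014T.Kc.Tr
import Vale.Agent.P027M.M.Serg

/-!
# P014T: linearity of the primitive, cyclotomic exponents of a transversal
-/

set_option autoImplicit false

open Finset

noncomputable section

namespace Vale.Agent.P014T.Sb

open Vale.Agent.P022 Vale.Agent.P022K Sy
open Vale.Agent.P004S.Ga (K O mem_O)
open Vale.Agent.P004S.Aq
open Vale.Agent.P004F.Rc (hn hn_mul O_nat)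
open Vale.Agent.P027M.M (Cyc)
open QT.Cu (E E_add E_nat E_zero E_int E_eq_one E_ne io_E_ze norm_E)
open Dr (Hm)

section lin

variable {C : Type} [NormedField C] [IsUltrametricDist C] [CharZero C] {L c : ℕ} [NeZero L] {ζ t : C}

theorem EE_ig (hζ : ζ ^ L = 1) {v : ZMod L × ZMod L} (h : c * v.1 ≠ 0) : EE L ζ c v ∈ Ig C := by
  intro k
  have n : ‖ζ‖ = 1 := (pow_eq_one_iff_of_nonneg (norm_nonneg _) (NeZero.ne L)).1
    (by rw [← norm_pow, hζ, norm_one])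
  have d (a : ℕ) {η : C} (e : ‖η‖ = 1) : dp L (k + 1) a η ∈ Ig C :=
    sub_mem (sum_mem fun _ _ => Hs_ig (by simp [e]) _) (sum_mem fun _ _ => Hs_ig e.le _)
  rw [sub_eq_zero.1 ((map_sub _ _ _).symm.trans
    (PowerSeries.X_pow_dvd_iff.1 (ee_dvd hζ h (k + 1)) k k.lt_succ_self))]
  exact sub_mem (add_mem (intCast_mem _ _) (mul_mem (natCast_mem _ _) (d _ (by simp [n]))))
    (mul_mem (natCast_mem _ _) (d _ (by simp [n]))) k

variable [CompleteSpace C] (h2 : ‖(2 : C)‖ = 1 / 2) (ht : ‖t‖ < 1)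
include h2 ht

omit [CharZero C] in
theorem Lm_sum {I : Type} {T : Finset I} {f : I → PowerSeries C} (h : ∀ i ∈ T, f i ∈ Ig C) :
    Lm t (∑ i ∈ T, f i) = ∑ i ∈ T, Lm t (f i) := by
  induction T using Finset.cons_induction with
  | empty => exact Lm_zero
  | cons i T _ ih =>
    rw [forall_mem_cons] at h
    rw [sum_cons, sum_cons, Lm_add h2 ht h.1 (sum_mem h.2), ih h.2]

theorem lin (hζ : ζ ^ L = 1) {d N : ℕ} (cl : c.Coprime L) (dl : d.Coprime L) (u v : ℤ)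
    {w : ZMod L → ℤ} (hw : ∀ x, w x ≠ 0 → IsUnit x) {T : Finset ((ZMod L × ZMod L) × ZMod L × ZMod L)}
    (hT : ∀ Y, Y ∈ T ↔ IsUnit (Y.1.1 * Y.2.2 - Y.1.2 * Y.2.1) ∧
      N ∣ ((u : ZMod L) * Y.1.1 + v * Y.2.1).val) (nz : ∀ Y ∈ T, Y.1.1 ≠ 0 ∧ Y.2.1 ≠ 0) :
    Lm t (∑ Y, Rk.Ph N u v (fun x => (w x : C)) Y • (EE L ζ c Y.1 * EE L ζ d Y.2)) =
      ∑ Y ∈ T, w (Y.1.1 * Y.2.2 - Y.1.2 * Y.2.1) * Lm t (EE L ζ c Y.1 * EE L ζ d Y.2) := by
  have k {c : ℕ} (cl : c.Coprime L) {a : ZMod L} (ha : a ≠ 0) : c * a ≠ 0 :=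
    ((ZMod.isUnit_iff_coprime c L).2 cl).mul_right_eq_zero.not.2 ha
  simp only [← Lm_int]
  rw [← Lm_sum h2 ht fun Y hY => mul_mem (intCast_mem _ _)
    (mul_mem (EE_ig hζ (k cl (nz Y hY).1)) (EE_ig hζ (k dl (nz Y hY).2))),
    ← sum_subset T.subset_univ fun Y _ hY => ?_]
  · refine congrArg _ (sum_congr rfl fun Y hY => ?_)
    rw [Rk.Ph, if_pos ((hT Y).1 hY).2, Int.cast_smul_eq_zsmul, zsmul_eq_mul]
  · rw [Rk.Ph]
    split_ifs with e
    · rw [not_not.1 fun a => hY ((hT Y).2 ⟨hw _ a, e⟩), Int.cast_zero, zero_smul]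
    · exact zero_smul _ _

end lin

variable {l : ℕ} {g g' : GQ} {k k' : ℤ}

theorem cyc_E : Cyc l g k ↔ g (E (1 / l)) = E (k / l) := by
  have := io_E_ze l 1
  rw [Int.cast_one] at this
  exact ⟨fun h => P027M.M.io_inj ((h _ this).trans (io_E_ze l k).symm), fun h a e => by
    rw [P027M.M.io_inj (e.trans this.symm), h, io_E_ze]⟩

variable (hl : 0 < l)
include hl

theorem E_iff : E (k / l) = E (k' / l) ↔ (k : ZMod l) = k' := by
  have : (l : ℚ) ≠ 0 := Nat.cast_ne_zero.2 hl.ne'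
  rw [show (k' / l : ℚ) = k / l + (k' - k) / l by ring, E_add, eq_comm, mul_eq_left₀ (E_ne _),
    E_eq_one, ZMod.intCast_eq_intCast_iff_dvd_sub]
  refine exists_congr fun c => ?_
  rw [div_eq_iff this, mul_comm]
  norm_cast

theorem cyc_mul (h : Cyc l g k) (h' : Cyc l g' k') : Cyc l (g * g') (k * k') := by
  have : (l : ℚ) ≠ 0 := Nat.cast_ne_zero.2 hl.ne'
  rw [cyc_E, AlgEquiv.mul_apply, cyc_E.1 h', Sg.gal_E h hl ⟨k', by field_simp⟩, Int.cast_mul,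
    mul_div_assoc]

theorem E_prim : IsPrimitiveRoot (E (1 / l)) l :=
  have a (m : ℕ) : E (1 / l) ^ m = 1 ↔ l ∣ m := by
    rw [← E_nat, mul_one_div, ← E_zero, ← zero_div (l : ℚ), ← Int.cast_natCast m, ← Int.cast_zero,
      E_iff hl, Int.cast_natCast, Int.cast_zero, ZMod.natCast_eq_zero_iff]
  ⟨(a l).2 dvd_rfl, fun m => (a m).1⟩

theorem hm_iff : g ∈ Hm l ↔ g (E (1 / l)) = E (1 / l) :=
  have : NeZero l := ⟨hl.ne'⟩
  ⟨fun h => h _ (E_prim hl).pow_eq_one, fun h z e => by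
    obtain ⟨i, -, rfl⟩ := (E_prim hl).eq_pow_of_pow_eq_one e
    rw [map_pow, h]⟩

theorem cyc_onto {x : ZMod l} (hx : IsUnit x) : ∃ g, Cyc l g x.val := by
  have : NeZero l := ⟨hl.ne'⟩
  have p := E_prim hl
  have q := p.pow_of_coprime x.val ((ZMod.isUnit_iff_coprime _ l).1 (by simpa using hx))
  have i := Polynomial.cyclotomic.irreducible_rat hl
  obtain ⟨σ, e⟩ := IsConjRoot.exists_algEquiv (K := ℚ) ((q.minpoly_eq_cyclotomic_of_irreducible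
    i).symm.trans (p.minpoly_eq_cyclotomic_of_irreducible i))
  exact ⟨σ, by rw [cyc_E, e, ← E_nat, mul_one_div, Int.cast_natCast]⟩

theorem cyk {n : ℕ} (d : 2 ^ n ∣ l) (h : Cyc l g k) : hn n * (cy g - k) ∈ O := by
  have : NeZero l := ⟨hl.ne'⟩
  obtain ⟨m, rfl⟩ := d
  obtain ⟨i, -, e⟩ := (E_prim hl).eq_pow_of_pow_eq_one (ξ := ex (hn n))
    (by rw [pow_mul, (ex_prim' n).pow_eq_one, one_pow])
  have := ex_cy g (hn n)
  rw [← e, map_pow, cyc_E.1 h, div_eq_mul_one_div (k : ℚ), Sg.E_zpow, ← zpow_natCast, zpow_comm,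
    zpow_natCast, e, ← ex_int, eq_comm, ex_eq] at this
  exact O_of this (by ring)

variable {J : Type} {s : J → GQ} {p : GQ → J → J} {κ : J → ℤ} (t : Kc.Tr ⊤ (Hm l) s p)
  (c : ∀ i, Cyc l (s i) (κ i))
include t c

theorem wt_inj {i j : J} (h : (κ i : ZMod l) = κ j) : i = j := t.un i j ((hm_iff hl).2 (by
  rw [AlgEquiv.mul_apply, cyc_E.1 (c j), ← (E_iff hl).2 h, ← cyc_E.1 (c i)]
  exact (s i).symm_apply_apply _))

omit c in
theorem wt_eq (g : GQ) (i : J) : s (p g i) (E (1 / l)) = (g * s i) (E (1 / l)) := by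
  rw [← Kc.ta_eq (r := s) (p := p), AlgEquiv.mul_apply, (hm_iff hl).1 (t.ta_mem trivial i)]

theorem wt_act (h : Cyc l g k) (i : J) : (κ (p g i) : ZMod l) = k * κ i := by
  rw [← Int.cast_mul, ← E_iff hl, ← cyc_E.1 (c _), wt_eq hl t, cyc_E.1 (cyc_mul hl h (c i))]

theorem wt_onto [h : Nonempty J] {x : ZMod l} (hx : IsUnit x) : ∃ i, (κ i : ZMod l) = x := by
  have : NeZero l := ⟨hl.ne'⟩
  obtain ⟨g, e⟩ := cyc_onto hl hx
  refine h.elim fun i => ⟨p (g * (s i)⁻¹) i, ?_⟩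
  rw [← ZMod.natCast_zmod_val x, ← Int.cast_natCast, ← E_iff hl, ← cyc_E.1 (c _), wt_eq hl t,
    inv_mul_cancel_right, cyc_E.1 e]

omit t c in
theorem cyc_cop (h : Cyc l g k) : IsCoprime k l := ((P027M.M.serg l hl g).2 k h).1

end Vale.Agent.P014T.Sb
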