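import Vale.Agent.P014T.Sb.Lg

/-!
# P014T: the value at `t` of the primitive of `f dX / X`
-/

set_option autoImplicit false

open Filter Topology IsUltrametricDist PowerSeries

noncomputable section

namespace Vale.Agent.P014T.Sb

variable {C : Type} [NormedField C]

/-- the value at `t` of the primitive of `f dX / X` -/
def Lm (t : C) (f : C⟦X⟧) : C := coeff 0 f * Lg t + ∑' k : ℕ, coeff k f * t ^ k / k

/-- the series `y / (1 - y)`, `y = ξ X ^ R` -/
def Hs (ξ : C) (R : ℕ) : C⟦X⟧ := PowerSeries.mk fun n => if R ∣ n ∧ n ≠ 0 then ξ ^ (n / R) else 0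

variable {t ξ ξ' : C} {f g : C⟦X⟧} {R R' : ℕ}

theorem Lm_C (c : C) (f : C⟦X⟧) : Lm t (PowerSeries.C c * f) = c * Lm t f := by
  simp only [Lm, coeff_C_mul, mul_add, mul_assoc, mul_div_assoc, tsum_mul_left]

theorem Lm_neg (f : C⟦X⟧) : Lm t (-f) = -Lm t f := by simpa using Lm_C (t := t) (-1) f

theorem Lm_zero : Lm t 0 = 0 := by simp [Lm]

theorem Lm_one : Lm t 1 = Lg t := by
  rw [Lm, (tsum_congr fun k => by cases k <;> simp [coeff_one]).trans tsum_zero]
  simp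

theorem Lm_Hs (h : 0 < R) : Lm t (Hs ξ R) = -lgs (1 - ξ * t ^ R) / R := by
  rw [Lm, lgs, ← (mul_right_injective₀ h.ne').tsum_eq (f := fun k => coeff k (Hs ξ R) * t ^ k / k)
    fun k hk => ?_, neg_neg, ← tsum_div_const, Hs, coeff_mk, if_neg (by simp), zero_mul, zero_add]
  · refine tsum_congr fun k => ?_
    cases k with
    | zero => simp
    | succ k =>
      rw [coeff_mk, if_pos ⟨dvd_mul_right _ _, by positivity⟩, Nat.mul_div_cancel_left _ h,
        sub_sub_cancel, mul_pow, pow_mul, Nat.cast_mul, div_div, mul_comm (R : C)]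
  · by_contra c
    rw [Function.mem_support, Hs, coeff_mk, if_neg fun e => c ⟨_, e.1.choose_spec.symm⟩] at hk
    simp at hk

theorem Hs_eq (h : 0 < R) : Hs ξ R = PowerSeries.C ξ * X ^ R * (1 + Hs ξ R) := by
  ext n
  rw [mul_assoc, coeff_C_mul, coeff_X_pow_mul', map_add, coeff_one, Hs, coeff_mk, coeff_mk]
  by_cases c : R ≤ n
  · obtain ⟨m, rfl⟩ := Nat.exists_eq_add_of_le c
    rw [if_pos c, Nat.add_sub_cancel_left, Nat.add_div_left _ h, pow_succ']
    rcases eq_or_ne m 0 with rfl | m0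
    · simp [h.ne']
    · by_cases e : R ∣ m <;> simp [m0, e]
  · rw [if_neg c, if_neg fun e => c (Nat.le_of_dvd (Nat.pos_of_ne_zero e.2) e.1), mul_zero]

theorem Hs_dvd (h : 0 < R) : X ^ R ∣ Hs ξ R :=
  ⟨PowerSeries.C ξ * (1 + Hs ξ R), (Hs_eq h).trans (by ring)⟩

theorem Hs_step (h : 0 < R) (h' : 0 < R') : Hs ξ R * Hs ξ' R' = Hs ξ R * Hs (ξ * ξ') (R + R') +
    Hs (ξ * ξ') (R + R') * Hs ξ' R' + Hs (ξ * ξ') (R + R') := by
  have a := Hs_eq (ξ := ξ) h
  have b := Hs_eq (ξ := ξ') h'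
  have c := Hs_eq (ξ := ξ * ξ') (add_pos h h')
  have k : (1 : C⟦X⟧) - PowerSeries.C (ξ * ξ') * X ^ (R + R') ≠ 0 := fun e => by
    simpa [h.ne'] using congrArg constantCoeff e
  refine mul_left_cancel₀ k ?_
  rw [map_mul, pow_add] at c ⊢
  linear_combination Hs ξ' R' * a + PowerSeries.C ξ * X ^ R * (1 + Hs ξ R) * b -
    (Hs ξ R + Hs ξ' R' + 1) * c

variable [IsUltrametricDist C]

variable (C) in
/-- series with integral coefficients -/
def Ig : Subring C⟦X⟧ where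
  carrier := {f | ∀ k, ‖coeff k f‖ ≤ 1}
  zero_mem' _ := by simp
  one_mem' k := by rw [coeff_one]; split_ifs <;> simp
  add_mem' a b k := by rw [map_add]; exact nadd (a k) (b k)
  neg_mem' a k := by simpa using a k
  mul_mem' a b k := by
    rw [coeff_mul]
    exact norm_sum_le_of_forall_le_of_nonneg zero_le_one fun p _ =>
      (norm_mul_le _ _).trans (mul_le_one₀ (a _) (norm_nonneg _) (b _))

theorem Hs_ig (h : ‖ξ‖ ≤ 1) (R : ℕ) : Hs ξ R ∈ Ig C := fun k => by
  rw [Hs, coeff_mk]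
  split_ifs
  · exact (norm_pow _ _).trans_le (pow_le_one₀ (norm_nonneg _) h)
  · simp

variable [CompleteSpace C] (h2 : ‖(2 : C)‖ = 1 / 2) (ht : ‖t‖ < 1)
include h2 ht

theorem Lm_add (hf : f ∈ Ig C) (hg : g ∈ Ig C) : Lm t (f + g) = Lm t f + Lm t g := by
  simp only [Lm, map_add, add_mul, add_div]
  rw [(sm_term h2 hf ht).tsum_add (sm_term h2 hg ht)]
  ring

theorem Lm_sub (hf : f ∈ Ig C) (hg : g ∈ Ig C) : Lm t (f - g) = Lm t f - Lm t g := by
  rw [sub_eq_add_neg, Lm_add h2 ht hf (neg_mem hg), Lm_neg, sub_eq_add_neg]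

omit [CompleteSpace C] in
theorem Lm_small {δ : ℝ} (h : 0 < δ) :
    ∀ᶠ N in atTop, ∀ f ∈ Ig C, X ^ N ∣ f → ‖Lm t f‖ ≤ δ := by
  obtain ⟨N, hN⟩ := eventually_atTop.1 ((sm_geo ht).tendsto_atTop_zero.eventually_le_const h)
  filter_upwards [eventually_ge_atTop (N + 1)] with m hm f hf e
  rw [X_pow_dvd_iff] at e
  rw [Lm, e 0 (by omega), zero_mul, zero_add]
  refine norm_tsum_le_of_forall_le fun k => ?_
  rcases lt_or_ge k m with c | c
  · simp [e k c, h.le]
  · exact (n_term h2 (hf k) k).trans (hN k (by omega))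

end Vale.Agent.P014T.Sb
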