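import Vale.Agent.P014T.Sb.Tt
import Vale.Agent.P014T.Sg.Ex
import Vale.Agent.P014T.Sy.Wt

/-!
# P014T: the symbol of the partial products of two Siegel units, fixed first column
-/

set_option autoImplicit false

open Filter Topology Finset

noncomputable section

namespace Vale.Agent.P014T.Sb

open Vale.Agent.P022 Vale.Agent.P022K Sy Sy.Fd
open Vale.Agent.P004S.Ga (K O mem_O)
open Sg (jx sx ux wx)

variable {C : Type} [NormedField C]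

/-- the partial products -/
def pp (L k a : ℕ) (η t : C) : C :=
  (∏ i ∈ range k, (1 - η * t ^ (a + i * L))) * ∏ i ∈ range k, (1 - η⁻¹ * t ^ (L - a + i * L))

/-- the partial products of a Siegel unit -/
def ap (c L r : ℕ) (ξ t : C) (k : ℕ) : C :=
  (-1) ^ sx c L r * (ξ ^ ux c L r * t ^ wx c L r) * pp L k r ξ t ^ c ^ 2 /
    pp L k (c * r % L) (ξ ^ c) t

/-- the logarithmic derivative of `pp` -/
def dp (L k a : ℕ) (η : C) : PowerSeries C :=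
  ∑ i ∈ range k, Hs η⁻¹ (L - a + i * L) - ∑ i ∈ range k, Hs η (a + i * L)

/-- the logarithmic derivative of `ap` -/
def dl (c L r : ℕ) (ξ : C) (k : ℕ) : PowerSeries C :=
  ux c L r + (c ^ 2 : ℕ) * dp L k r ξ - c * dp L k (c * r % L) (ξ ^ c)

variable {X : Type} {S : Finset X} {t ξ ξ' : X → C} {c L r r' : ℕ}

theorem Lm_int (t : C) (κ : ℤ) (f : PowerSeries C) : Lm t (κ * f) = κ * Lm t f := by
  rw [← Lm_C, map_intCast]

/-- induction over the factors -/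
theorem gen {Q : (X → C) → (X → PowerSeries C) → Prop} (hc : Odd c) (h0 : c * r % L ≠ 0)
    (h1 : r < L) (ne : ∀ x ∈ S, t x ≠ 0 ∧ ξ x ≠ 0)
    (mul : ∀ f φ g ψ, Q f φ → Q g ψ → Q (f * g) (φ + ψ)) (inv : ∀ f φ, Q f φ → Q f⁻¹ (-φ))
    (cg : ∀ f φ f' φ', Q f φ → (∀ x ∈ S, f' x = f x) → (∀ x ∈ S, φ' x = φ x) → Q f' φ')
    (a0 : Q (-1) 0) (aq : Q (fun x => t x ^ L) 0) (au : Q (fun x => ξ x * t x ^ r) 1)
    (a1 : ∀ (κ : ℤ) (R : ℕ), Odd κ → 0 < R → (L : ℤ) ∣ R - κ * r →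
      Q (1 - fun x => ξ x ^ κ * t x ^ R) fun x => -κ * Hs (ξ x ^ κ) R) (k : ℕ) :
    Q (fun x => ap c L r (ξ x) (t x) k) fun x => dl c L r (ξ x) k := by
  have one : Q 1 0 := by simpa using mul _ _ _ _ a0 a0
  have pw {f φ} (h : Q f φ) (m : ℕ) : Q (f ^ m) (m • φ) := by
    induction m with
    | zero => simpa using one
    | succ m ih => rw [pow_succ, succ_nsmul]; exact mul _ _ _ _ ih h
  have zp {f φ} (h : Q f φ) (m : ℤ) : Q (f ^ m) (m • φ) := by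
    obtain ⟨m, rfl | rfl⟩ := m.eq_nat_or_neg
    · simpa using pw h m
    · simpa using inv _ _ (pw h m)
  have pr {f : ℕ → X → C} {φ : ℕ → X → PowerSeries C} (h : ∀ i, Q (f i) (φ i)) :
      Q (∏ i ∈ range k, f i) (∑ i ∈ range k, φ i) := by
    induction k with
    | zero => simpa using one
    | succ k ih => rw [prod_range_succ, sum_range_succ]; exact mul _ _ _ _ ih (h k)
  have bl (κ a : ℕ) (o : Odd κ) (p : a ≠ 0) (p' : a < L) (e : (L : ℤ) ∣ a - κ * r) :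
      Q (fun x => pp L k a (ξ x ^ κ) (t x)) fun x => κ * dp L k a (ξ x ^ κ) :=
    cg _ _ _ _ (mul _ _ _ _ (pr fun i => a1 κ (a + i * L) (by exact_mod_cast o) (by omega) (by
      simpa [add_sub_right_comm] using e.add (dvd_mul_left (L : ℤ) i)))
      (pr fun i => a1 (-κ) (L - a + i * L) (Odd.neg (by exact_mod_cast o)) (by omega) (by
        have := (dvd_mul_right (L : ℤ) (i + 1)).sub e
        push_cast [p'.le]
        exact (congrArg _ (by ring)).mp this)))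
      (fun x _ => by simp [pp]) fun x _ => by
        simp [dp, mul_add, mul_sum, sub_eq_neg_add]
  refine cg _ _ _ _ (mul _ _ _ _ (mul _ _ _ _ (mul _ _ _ _ (zp a0 (sx c L r)) (mul _ _ _ _
    (zp au (ux c L r)) (zp aq ((c ^ 2 - 1) / 12 - jx c L r * (jx c L r + 1) / 2))))
    (pw (bl 1 r odd_one (by rintro rfl; simp at h0) h1 (by simp)) (c ^ 2)))
    (inv _ _ (bl c _ hc h0 (Nat.mod_lt _ (by omega)) ?_))) (fun x hx => ?_) fun x _ => ?_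
  · rw [Int.natCast_mod, Int.emod_def]
    simp
  · simp only [ap, wx, Pi.mul_apply, Pi.pow_apply, Pi.inv_apply, Pi.neg_apply, Pi.one_apply,
      pow_one, div_eq_mul_inv, zpow_add₀ (ne x hx).1, zpow_mul, mul_zpow, zpow_natCast,
      mul_comm (ux c L r)]
    ring
  · simp [dl, sub_eq_add_neg]

variable [IsAlgClosed C] {F : Fd C} {j : K →+* C} {σ : K} {α : GQ → X → X} {n : ℕ} {τ : X → K}

variable (F j α S n τ t) in
/-- the value of the symbol is the primitive of the product of the two series -/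
structure Pr (s : C) (f : X → C) (φ : X → PowerSeries C) (g : X → C) (ψ : X → PowerSeries C) :
    Prop where
  f1 : f ∈ F.G α S
  f2 : g ∈ F.G α S
  i1 : ∀ x ∈ S, ∀ k, ‖PowerSeries.coeff k (φ x)‖ ≤ 1
  i2 : ∀ x ∈ S, ∀ k, ‖PowerSeries.coeff k (ψ x)‖ ≤ 1
  vl : Vl j (2 • F.sym α S n τ f g) (2 * s * ∑ x ∈ S, Lm (t x) (φ x * ψ x))

variable (F α S n τ t ξ ξ' L r r') in
/-- the data of a column -/
structure Cx (M : ℕ) : Prop where
  d : Ds F.D α S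
  tw : Tw F.D α S n τ
  n0 : 0 < n
  M0 : 0 < M
  hM : Even M
  hL : L = M * 2 ^ n
  lt : ∀ x ∈ S, ‖t x‖ < 1
  gd : ∀ x ∈ S, Gd (t x)
  q : (fun x => t x ^ L) ∈ F.G α S
  u : (fun x => ξ x * t x ^ r) ∈ F.G α S
  u' : (fun x => ξ' x * t x ^ r') ∈ F.G α S
  rt : ∀ x ∈ S, ξ x ^ L = 1 ∧ ξ' x ^ L = 1
  zr : Zr F S n τ fun x => (ξ' x ^ r / ξ x ^ r') ^ M
  bz : ∃ a b c : ℤ, a * r + b * r' + c * L = 1

variable {M : ℕ} {s : C} {f f' g : X → C} {φ φ' ψ : X → PowerSeries C}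

theorem Pr.swap (d : Ds F.D α S) (tw : Tw F.D α S n τ) (h : Pr S t F j α n τ s f φ g ψ) :
    Pr S t F j α n τ (-s) g ψ f φ :=
  ⟨h.f2, h.f1, h.i2, h.i1, h.vl.neg.of (by rw [anti d tw h.f2 h.f1, neg_nsmul])
    (by simp [mul_comm (ψ _)])⟩

theorem Pr.cg (d : Ds F.D α S) (tw : Tw F.D α S n τ) (h : Pr S t F j α n τ s f φ g ψ)
    (e : ∀ x ∈ S, f' x = f x) (e' : ∀ x ∈ S, φ' x = φ x) : Pr S t F j α n τ s f' φ' g ψ :=
  ⟨G_congr d h.f1 e, h.f2, fun x hx => e' x hx ▸ h.i1 x hx, h.i2,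
    h.vl.of (by rw [Sb.cg d tw h.f1 h.f2 e fun _ _ => rfl])
      (by rw [sum_congr rfl fun x hx => by rw [e' x hx]])⟩

theorem Pr.inv (d : Ds F.D α S) (tw : Tw F.D α S n τ) (h : Pr S t F j α n τ s f φ g ψ) :
    Pr S t F j α n τ s f⁻¹ (-φ) g ψ :=
  ⟨G_inv h.f1, h.f2, by simpa using h.i1, h.i2,
    h.vl.neg.of (by rw [inv_l d tw h.f1 h.f2, neg_nsmul]) (by simp [Lm_neg])⟩

namespace Cx

variable (Y : Cx S t ξ ξ' L r r' F α n τ M)
include Y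

omit [IsAlgClosed C] in
theorem L0 : L ≠ 0 := Y.hL ▸ (mul_pos Y.M0 (by positivity)).ne'

omit [IsAlgClosed C] in
theorem ne (x : X) (hx : x ∈ S) : t x ≠ 0 ∧ ξ x ≠ 0 ∧ ξ' x ≠ 0 :=
  ⟨ne_zero_pow Y.L0 (Y.q x hx).1, left_ne_zero_of_mul (Y.u x hx).1,
    left_ne_zero_of_mul (Y.u' x hx).1⟩

omit [IsAlgClosed C] in
theorem mo_eq {κ κ' k : ℤ} {R : ℕ} (e : R - (κ * r + κ' * r') = L * k) (x : X) (hx : x ∈ S) :
    ξ x ^ κ * ξ' x ^ κ' * t x ^ R = ((fun x => ξ x * t x ^ r) ^ κ * (fun x => ξ' x * t x ^ r') ^ κ' *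
      (fun x => t x ^ L) ^ k) x := by
  simp only [Pi.mul_apply, Pi.pow_apply, mul_zpow, ← zpow_natCast, ← zpow_mul]
  rw [show (R : ℤ) = r * κ + r' * κ' + L * k by linear_combination e,
    zpow_add₀ (Y.ne x hx).1, zpow_add₀ (Y.ne x hx).1]
  ring

omit [IsAlgClosed C] in
theorem mo (κ κ' : ℤ) {R : ℕ} (h : (L : ℤ) ∣ R - (κ * r + κ' * r')) :
    Mo F α S t (fun x => ξ x ^ κ * ξ' x ^ κ') R fun x => ξ x ^ κ * ξ' x ^ κ' * t x ^ R := by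
  obtain ⟨k, e⟩ := h
  refine ⟨G_congr Y.d (mul_mem (mul_mem (G_zpow Y.u κ) (G_zpow Y.u' κ')) (G_zpow Y.q k))
    (Y.mo_eq e), fun x hx => ⟨?_, rfl⟩⟩
  have a (y : C) (h : y ^ L = 1) : ‖y‖ = 1 :=
    (pow_eq_one_iff_of_nonneg (norm_nonneg _) Y.L0).1 (by rw [← norm_pow, h, norm_one])
  simp [a _ (Y.rt x hx).1, a _ (Y.rt x hx).2]

omit [IsAlgClosed C] in
theorem rl {κ κ' μ μ' : ℤ} {R R' : ℕ} (h : (L : ℤ) ∣ R - (κ * r + κ' * r'))
    (h' : (L : ℤ) ∣ R' - (μ * r + μ' * r')) (x : X) (hx : x ∈ S) :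
    ((ξ x ^ μ * ξ' x ^ μ') ^ R) ^ M = ((ξ x ^ κ * ξ' x ^ κ') ^ R') ^ M *
      ((ξ' x ^ r / ξ x ^ r') ^ M) ^ (κ * μ' - κ' * μ) := by
  obtain ⟨k, e⟩ := h
  obtain ⟨k', e'⟩ := h'
  have a {y : C} (y0 : y ≠ 0) (h : y ^ L = 1) (p q m : ℤ) (e : p = q + L * m) : y ^ p = y ^ q := by
    rw [e, zpow_add₀ y0, zpow_mul, zpow_natCast, h, one_zpow, mul_one]
  obtain ⟨-, b, b'⟩ := Y.ne x hx
  rw [← zpow_natCast _ M, ← zpow_natCast _ M, ← zpow_natCast _ M, zpow_comm _ (M : ℤ), ← mul_zpow]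
  congr 1
  simp only [← zpow_natCast, mul_zpow, div_eq_mul_inv, ← zpow_neg, ← zpow_mul]
  rw [mul_comm (ξ' x ^ (r * _ : ℤ)), mul_mul_mul_comm,
    ← zpow_add₀ b, ← zpow_add₀ b']
  exact congrArg₂ (· * ·) (a b (Y.rt x hx).1 _ _ (μ * k - κ * k')
    (by linear_combination μ * e - κ * e')) (a b' (Y.rt x hx).2 _ _ (μ' * k - κ' * k')
      (by linear_combination μ' * e - κ' * e'))

omit [IsAlgClosed C] in
theorem rt_q (a b : ℤ) (x : X) (hx : x ∈ S) : (ξ x ^ a * ξ' x ^ b * t x ^ 1) ^ L = t x ^ L := by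
  rw [mul_pow, mul_pow, ← zpow_natCast, ← zpow_natCast (_ ^ b), zpow_comm, zpow_comm (ξ' x),
    zpow_natCast, zpow_natCast, (Y.rt x hx).1, (Y.rt x hx).2]
  simp

theorem sym_q (hg : g ∈ F.G α S) : F.sym α S n τ (fun x => t x ^ L) g = 0 :=
  let ⟨a, b, c, e⟩ := Y.bz
  triv_l Y.d Y.tw Y.q hg (pow_mem (Y.mo a b (R := 1) ⟨c, by linear_combination -e⟩).1 M)
    fun x hx => by rw [Pi.pow_apply, ← pow_mul, ← Y.hL, Y.rt_q a b x hx]

theorem zero (hg : g ∈ F.G α S) (i : ∀ x ∈ S, ∀ k, ‖PowerSeries.coeff k (ψ x)‖ ≤ 1) (s : C) :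
    Pr S t F j α n τ s (-1) 0 g ψ ∧ Pr S t F j α n τ s (fun x => t x ^ L) 0 g ψ := by
  have o := G_neg (one_mem (F.G α S))
  refine ⟨⟨o, hg, by simp, i, vl_zero.of ?_ (by simp [Lm_zero])⟩, Y.q, hg, by simp, i,
    vl_zero.of (by rw [Y.sym_q hg, nsmul_zero]) (by simp [Lm_zero])⟩
  rw [← pow_l Y.d Y.tw o hg, neg_one_sq, ← pow_zero g, pow_l Y.d Y.tw hg hg, zero_nsmul]

theorem sym_tor : (L : ℤ) • F.sym α S n τ (fun x => ξ x * t x ^ r) (fun x => ξ' x * t x ^ r') = 0 := by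
  rw [natCast_zsmul, Y.hL, mul_nsmul', Fd.sym_tor Y.d Y.tw Y.u Y.u', nsmul_zero]

variable [IsUltrametricDist C] [CompleteSpace C] [CharZero C] (H : Hy F j σ)
include H

omit [CharZero C] in
theorem mul (h : Pr S t F j α n τ s f φ g ψ) (k : Pr S t F j α n τ s f' φ' g ψ) :
    Pr S t F j α n τ s (f * f') (φ + φ') g ψ :=
  ⟨mul_mem h.f1 k.f1, h.f2, fun x hx => add_mem (S := Subring _) (s := Ig C) (h.i1 x hx)
    (k.i1 x hx), h.i2, (h.vl.add k.vl).of (by rw [ml Y.d Y.tw h.f1 h.f2 k.f1, nsmul_add]) (by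
      rw [← mul_add, ← sum_add_distrib]
      refine congrArg _ (sum_congr rfl fun x hx => ?_)
      rw [Pi.add_apply, add_mul]
      exact Lm_add H.two (Y.lt x hx) ((Ig C).mul_mem (h.i1 x hx) (h.i2 x hx))
        ((Ig C).mul_mem (k.i1 x hx) (h.i2 x hx)))⟩

theorem mm : Pr S t F j α n τ (j σ / (M * 4 ^ n)) (fun x => ξ x * t x ^ r) 1
    (fun x => ξ' x * t x ^ r') 1 := by
  obtain ⟨a, b, c, e⟩ := Y.bz
  have e' : (1 : ℕ) - (a * r + b * r') = L * c := by linear_combination -e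
  have T := (Y.mo a b ⟨c, e'⟩).1
  have i := G_inv (pow_mem Y.u r')
  have z := mul_mem (pow_mem Y.u' r) i
  have g (x) (hx : x ∈ S) := (Y.rt_q a b x hx ▸ (Lg_pow H.two (Y.gd x hx) L).1 : Gd (_ ^ L)).root
    (Nat.pos_of_ne_zero Y.L0)
  have := (root H Y.d Y.tw Y.n0 Y.zr odd_one T g z Y.M0 Y.hM fun x hx => by
    obtain ⟨h1, h2, h3⟩ := Y.ne x hx
    simp only [Pi.mul_apply, Pi.pow_apply, Pi.inv_apply, zpow_one]
    congr 1
    field_simp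
    ring).nsmul 2
  refine ⟨Y.u, Y.u', fun _ _ => (Ig C).one_mem, fun _ _ => (Ig C).one_mem, this.of ?_ ?_⟩
  · have k := Y.sym_tor
    rw [cg Y.d Y.tw (mul_mem (mul_mem (G_zpow Y.u a) (G_zpow Y.u' b)) (G_zpow Y.q c)) z (Y.mo_eq e')
      fun _ _ => rfl, ml Y.d Y.tw (mul_mem (G_zpow Y.u a) (G_zpow Y.u' b)) z (G_zpow Y.q c),
      ml Y.d Y.tw (G_zpow Y.u a) z (G_zpow Y.u' b), zpow_l Y.d Y.tw Y.u z, zpow_l Y.d Y.tw Y.u' z,
      zpow_l Y.d Y.tw Y.q z, Y.sym_q z, mr Y.d Y.tw Y.u (pow_mem Y.u' r) i,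
      mr Y.d Y.tw Y.u' (pow_mem Y.u' r) i, inv_r Y.d Y.tw Y.u (pow_mem Y.u _),
      inv_r Y.d Y.tw Y.u' (pow_mem Y.u _), pow_r Y.d Y.tw Y.u Y.u', pow_r Y.d Y.tw Y.u Y.u,
      pow_r Y.d Y.tw Y.u' Y.u', pow_r Y.d Y.tw Y.u' Y.u, anti Y.d Y.tw Y.u' Y.u]
    linear_combination (norm := module) (a * r') • skew Y.d Y.tw Y.u Y.u -
      (b * r) • skew Y.d Y.tw Y.u' Y.u' + (2 * c) • k - e • (2 • F.sym α S n τ _ _)
  · simp only [Pi.one_apply, mul_one, Lm_one]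
    rw [sum_congr rfl fun x hx => mul_left_cancel₀ (Nat.cast_ne_zero.2 Y.L0)
      (((Lg_pow H.two (g x hx) L).2.symm.trans (congrArg Lg (Y.rt_q a b x hx))).trans
        (Lg_pow H.two (Y.gd x hx) L).2)]
    push_cast
    ring

theorem at_u {κ : ℤ} {R : ℕ} (o : Odd κ) (p : 0 < R) (e : (L : ℤ) ∣ R - κ * r) :
    Pr S t F j α n τ (j σ / (M * 4 ^ n)) (1 - fun x => ξ x ^ κ * t x ^ R)
      (fun x => -κ * Hs (ξ x ^ κ) R) (fun x => ξ' x * t x ^ r') 1 := by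
  have e1 : (L : ℤ) ∣ R - (κ * r + 0 * r') := by simpa using e
  have e2 : (L : ℤ) ∣ r' - (0 * r + 1 * r') := by simp
  have a := Y.mo _ _ e1
  have := (tm H Y.d Y.tw Y.n0 Y.zr (by simpa using o) Y.lt Y.M0 Y.hM a (Y.mo _ _ e2) p
    (Y.rl e1 e2)).nsmul 2
  have b := (a.lt Y.lt p).2
  have c := a.2
  simp only [zpow_zero, zpow_one, mul_one, one_mul] at this b c
  refine ⟨b, Y.u', fun x hx => (Ig C).mul_mem (neg_mem (intCast_mem _ κ)) (Hs_ig (c x hx).1 R),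
    fun _ _ => (Ig C).one_mem, this.of rfl ?_⟩
  simp only [Pi.one_apply, mul_one, neg_mul, Lm_neg, Lm_int, sum_neg_distrib, ← mul_sum]
  push_cast
  ring

theorem u_at {κ : ℤ} {R : ℕ} (o : Odd κ) (p : 0 < R) (e : (L : ℤ) ∣ R - κ * r') :
    Pr S t F j α n τ (-(j σ / (M * 4 ^ n))) (1 - fun x => ξ' x ^ κ * t x ^ R)
      (fun x => -κ * Hs (ξ' x ^ κ) R) (fun x => ξ x * t x ^ r) 1 := by
  have e1 : (L : ℤ) ∣ R - (0 * r + κ * r') := by simpa using e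
  have e2 : (L : ℤ) ∣ r - (1 * r + 0 * r') := by simp
  have a := Y.mo _ _ e1
  have := (tm H Y.d Y.tw Y.n0 Y.zr (by simpa using o) Y.lt Y.M0 Y.hM a (Y.mo _ _ e2) p
    (Y.rl e1 e2)).nsmul 2
  have b := (a.lt Y.lt p).2
  have c := a.2
  simp only [zpow_zero, zpow_one, mul_one, one_mul] at this b c
  refine ⟨b, Y.u, fun x hx => (Ig C).mul_mem (neg_mem (intCast_mem _ κ)) (Hs_ig (c x hx).1 R),
    fun _ _ => (Ig C).one_mem, this.of rfl ?_⟩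
  simp only [Pi.one_apply, mul_one, neg_mul, Lm_neg, Lm_int, sum_neg_distrib, ← mul_sum]
  push_cast
  ring

theorem at_at {κ κ' : ℤ} {R R' : ℕ} (o : Odd κ) (p : 0 < R) (e : (L : ℤ) ∣ R - κ * r) (o' : Odd κ')
    (p' : 0 < R') (e' : (L : ℤ) ∣ R' - κ' * r') :
    Pr S t F j α n τ (j σ / (M * 4 ^ n)) (1 - fun x => ξ x ^ κ * t x ^ R)
      (fun x => -κ * Hs (ξ x ^ κ) R) (1 - fun x => ξ' x ^ κ' * t x ^ R')
      fun x => -κ' * Hs (ξ' x ^ κ') R' := by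
  have e1 : (L : ℤ) ∣ R - (κ * r + 0 * r') := by simpa using e
  have e2 : (L : ℤ) ∣ R' - (0 * r + κ' * r') := by simpa using e'
  have a := Y.mo _ _ e1
  have a' := Y.mo _ _ e2
  have := tt H Y.d Y.tw Y.n0 Y.zr (by simpa using o.mul o') Y.lt Y.M0 Y.hM a a' p p' (Y.rl e1 e2)
  have b := (a.lt Y.lt p).2
  have c := a.2
  have b' := (a'.lt Y.lt p').2
  have c' := a'.2
  simp only [zpow_zero, mul_one, one_mul] at this b c b' c'
  refine ⟨b, b', fun x hx => (Ig C).mul_mem (neg_mem (intCast_mem _ κ)) (Hs_ig (c x hx).1 R),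
    fun x hx => (Ig C).mul_mem (neg_mem (intCast_mem _ κ')) (Hs_ig (c' x hx).1 R'),
    this.of rfl ?_⟩
  simp only [neg_mul, mul_neg, neg_neg, mul_mul_mul_comm (κ : PowerSeries C), ← Int.cast_mul,
    Lm_int, ← mul_sum]
  push_cast
  ring

/-- **the symbol of the partial products** -/
theorem col {e : ℕ} (hc : Odd c) (h0 : c * r % L ≠ 0) (h1 : r < L) (he : Odd e)
    (h0' : e * r' % L ≠ 0) (h1' : r' < L) (k : ℕ) :
    Pr S t F j α n τ (j σ / (M * 4 ^ n)) (fun x => ap c L r (ξ x) (t x) k)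
      (fun x => dl c L r (ξ x) k) (fun x => ap e L r' (ξ' x) (t x) k)
      fun x => dl e L r' (ξ' x) k := by
  have g {g ψ} (hg : g ∈ F.G α S) (i : ∀ x ∈ S, ∀ k, ‖PowerSeries.coeff k (ψ x)‖ ≤ 1) :=
    gen (Q := fun f φ => Pr S t F j α n τ (j σ / (M * 4 ^ n)) f φ g ψ) hc h0 h1
      (fun x hx => ⟨(Y.ne x hx).1, (Y.ne x hx).2.1⟩) (fun _ _ _ _ => Y.mul H)
      (fun _ _ => .inv Y.d Y.tw) (fun _ _ _ _ => .cg Y.d Y.tw) (Y.zero hg i _).1 (Y.zero hg i _).2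
  have u := g Y.u' (Y.mm H).i2 (Y.mm H) (fun _ _ => Y.at_u H) k
  have := gen (Q := fun g ψ => Pr S t F j α n τ (-(j σ / (M * 4 ^ n))) g ψ _ _) he h0' h1'
    (fun x hx => ⟨(Y.ne x hx).1, (Y.ne x hx).2.2⟩) (fun _ _ _ _ => Y.mul H)
    (fun _ _ => .inv Y.d Y.tw) (fun _ _ _ _ => .cg Y.d Y.tw) (Y.zero u.f1 u.i1 _).1
    (Y.zero u.f1 u.i1 _).2 (u.swap Y.d Y.tw) (fun _ _ o p e =>
      (g (Y.u_at H o p e).f1 (Y.u_at H o p e).i1 (neg_neg (j σ / (M * 4 ^ n)) ▸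
        (Y.u_at H o p e).swap Y.d Y.tw) (fun _ _ o' p' e' => Y.at_at H o' p' e' o p e) k).swap
        Y.d Y.tw) k
  exact neg_neg (j σ / (M * 4 ^ n)) ▸ this.swap Y.d Y.tw

end Cx

end Vale.Agent.P014T.Sb
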