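import Mathlib

/-!
# P014T: Steinberg symbols and the expansion of `s (1 - x) (1 - y)`
-/

set_option autoImplicit false

open Finset

namespace Vale.Agent.P014T.Sb

variable {F A : Type} [Field F] [AddCommGroup A]

/-- a Steinberg symbol, written additively -/
structure Sy (s : F → F → A) : Prop where
  ml : ∀ a b c, a ≠ 0 → b ≠ 0 → c ≠ 0 → s (a * b) c = s a c + s b c
  mr : ∀ a b c, a ≠ 0 → b ≠ 0 → c ≠ 0 → s a (b * c) = s a b + s a c
  st : ∀ w, w ≠ 0 → w ≠ 1 → s (1 - w) w = 0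

namespace Sy

variable {s : F → F → A} (h : Sy s) {a b c : F}
include h

theorem one_l (ha : a ≠ 0) : s 1 a = 0 := by simpa using h.ml 1 1 a one_ne_zero one_ne_zero ha

theorem one_r (ha : a ≠ 0) : s a 1 = 0 := by simpa using h.mr a 1 1 ha one_ne_zero one_ne_zero

theorem inv_l (ha : a ≠ 0) (hb : b ≠ 0) : s a⁻¹ b = -s a b := by
  rw [eq_neg_iff_add_eq_zero, ← h.ml _ _ _ (inv_ne_zero ha) ha hb, inv_mul_cancel₀ ha, h.one_l hb]

theorem inv_r (ha : a ≠ 0) (hb : b ≠ 0) : s a b⁻¹ = -s a b := by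
  rw [eq_neg_iff_add_eq_zero, ← h.mr _ _ _ ha (inv_ne_zero hb) hb, inv_mul_cancel₀ hb, h.one_r ha]

theorem pow_l (ha : a ≠ 0) (hb : b ≠ 0) (n : ℕ) : s (a ^ n) b = n • s a b := by
  induction n with
  | zero => simp [h.one_l hb]
  | succ n ih => rw [pow_succ, h.ml _ _ _ (pow_ne_zero _ ha) ha hb, ih, succ_nsmul]

theorem pow_r (ha : a ≠ 0) (hb : b ≠ 0) (n : ℕ) : s a (b ^ n) = n • s a b := by
  induction n with
  | zero => simp [h.one_r ha]
  | succ n ih => rw [pow_succ, h.mr _ _ _ ha (pow_ne_zero _ hb) hb, ih, succ_nsmul]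

theorem zpow_l (ha : a ≠ 0) (hb : b ≠ 0) (n : ℤ) : s (a ^ n) b = n • s a b := by
  cases n <;> simp [h.pow_l ha hb, h.inv_l (pow_ne_zero _ ha) hb]

theorem zpow_r (ha : a ≠ 0) (hb : b ≠ 0) (n : ℤ) : s a (b ^ n) = n • s a b := by
  cases n <;> simp [h.pow_r ha hb, h.inv_r ha (pow_ne_zero _ hb)]

theorem prod_l {ι : Type} {T : Finset ι} {f : ι → F} (hf : ∀ i ∈ T, f i ≠ 0) (hb : b ≠ 0) :
    s (∏ i ∈ T, f i) b = ∑ i ∈ T, s (f i) b := by
  induction T using Finset.cons_induction with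
  | empty => simp [h.one_l hb]
  | cons i T _ ih =>
    rw [forall_mem_cons] at hf
    rw [prod_cons, sum_cons, h.ml _ _ _ hf.1 (prod_ne_zero_iff.2 hf.2) hb, ih hf.2]

theorem prod_r {ι : Type} {T : Finset ι} {f : ι → F} (ha : a ≠ 0) (hf : ∀ i ∈ T, f i ≠ 0) :
    s a (∏ i ∈ T, f i) = ∑ i ∈ T, s a (f i) := by
  induction T using Finset.cons_induction with
  | empty => simp [h.one_r ha]
  | cons i T _ ih =>
    rw [forall_mem_cons] at hf
    rw [prod_cons, sum_cons, h.mr _ _ _ ha hf.1 (prod_ne_zero_iff.2 hf.2), ih hf.2]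

theorem st' (ha : a ≠ 0) (h1 : a ≠ 1) : s a (1 - a) = 0 := by
  simpa using h.st (1 - a) (sub_ne_zero.2 h1.symm) (by simpa using ha)

theorem neg (ha : a ≠ 0) : s a (-a) = 0 := by
  rcases eq_or_ne a 1 with rfl | h1
  · exact h.one_l (neg_ne_zero.2 ha)
  have c : 1 - a⁻¹ ≠ 0 := sub_ne_zero.2 (inv_ne_one.2 h1).symm
  have e := h.mr a (-a) (1 - a⁻¹) ha (neg_ne_zero.2 ha) c
  have e' := h.st' (inv_ne_zero ha) (inv_ne_one.2 h1)
  rw [h.inv_l ha c, neg_eq_zero] at e'
  rwa [show -a * (1 - a⁻¹) = 1 - a by field_simp; ring, h.st' ha h1, e', add_zero, eq_comm] at e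

theorem anti (ha : a ≠ 0) (hb : b ≠ 0) : s a b = -s b a := by
  have k := mul_ne_zero ha hb
  have e := h.neg k
  rw [h.ml _ _ _ ha hb (neg_ne_zero.2 k), ← neg_mul, h.mr _ _ _ ha (neg_ne_zero.2 ha) hb,
    neg_mul_comm, h.mr _ _ _ hb ha (neg_ne_zero.2 hb), h.neg ha, h.neg hb] at e
  simpa [eq_neg_iff_add_eq_zero] using e

theorem neg_r (ha : a ≠ 0) (hb : b ≠ 0) : s a (-b) = s a b + s a (-1) := by
  rw [← h.mr _ _ _ ha hb (neg_ne_zero.2 one_ne_zero), mul_neg_one]

theorem two (ha : a ≠ 0) : s a (-1) + s a (-1) = 0 := by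
  rw [← h.neg_r ha (neg_ne_zero.2 one_ne_zero), neg_neg, h.one_r ha]

theorem self (ha : a ≠ 0) : s a a = s a (-1) := by
  have := h.neg_r ha (neg_ne_zero.2 ha)
  rwa [neg_neg, h.neg ha, zero_add] at this

/-- one step of the expansion -/
theorem step (ha : a ≠ 0) (h1 : a ≠ 1) (h2 : b ≠ 1) (h3 : a * b ≠ 1) : s (1 - a) (1 - b) =
    s (1 - a) (1 - a * b) + s (1 - a * b) (1 - b) + s (1 - a * b) (-a) := by
  have k1 := sub_ne_zero.2 h1.symm
  have k2 := sub_ne_zero.2 h2.symm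
  have k3 := sub_ne_zero.2 h3.symm
  have k4 := mul_ne_zero (mul_ne_zero ha k2) (inv_ne_zero k3)
  have e := h.st _ k4 fun e => k1 (by field_simp at e; linear_combination -e)
  rw [show 1 - a * (1 - b) * (1 - a * b)⁻¹ = (1 - a) * (1 - a * b)⁻¹ by field_simp; ring,
    h.ml _ _ _ k1 (inv_ne_zero k3) k4, h.inv_l k3 k4] at e
  simp only [h.mr _ _ _ k1 (mul_ne_zero ha k2) (inv_ne_zero k3), h.mr _ _ _ k1 ha k2,
    h.mr _ _ _ k3 (mul_ne_zero ha k2) (inv_ne_zero k3), h.mr _ _ _ k3 ha k2, h.inv_r k1 k3,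
    h.inv_r k3 k3, h.st a ha h1, h.self k3] at e
  rw [h.neg_r k3 ha]
  linear_combination (norm := abel1) e - h.two k3

/-- **the expansion** -/
theorem expand {x y : F} (hx : x ≠ 0) (hy : y ≠ 0) (h1 : ∀ i j : ℕ, 0 < i + j → x ^ i * y ^ j ≠ 1)
    {N : ℕ} (hN : ∀ (i j : ℕ) z, N ≤ i + j → z ≠ 0 → s (1 - x ^ i * y ^ j) z = 0) (t : ℕ × ℕ → A)
    (ht : ∀ i j a b : ℕ, 0 < i → 0 < j → a * j = b * i + 1 →
      s (1 - x ^ i * y ^ j) (-(x ^ a * y ^ b)) = t (i, j)) : s (1 - x) (1 - y) =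
    ∑ p ∈ range N ×ˢ range N with 0 < p.1 ∧ 0 < p.2 ∧ p.1.Coprime p.2 ∧ p.1 + p.2 < N, t p := by
  set S := (range N ×ˢ range N).filter fun p => p.1.Coprime p.2 ∧ p.1 + p.2 < N
  have ne (i j) (c : 0 < i + j) := sub_ne_zero.2 (h1 i j c).symm
  have k (n : ℕ) : ∀ a b c d : ℕ, a * d = b * c + 1 → 2 * N ≤ a + b + c + d + n →
      s (1 - x ^ a * y ^ b) (1 - x ^ c * y ^ d) =
        ∑ p ∈ S with b * p.1 < a * p.2 ∧ c * p.2 < d * p.1, t p := by
    induction n with
    | zero =>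
      intro a b c d e l
      have a0 : 0 < a := Nat.pos_of_ne_zero (by rintro rfl; simp at e)
      have d0 : 0 < d := Nat.pos_of_ne_zero (by rintro rfl; simp at e)
      refine Eq.trans ?_ (sum_eq_zero fun ⟨i, j⟩ hp => ?_).symm
      · rcases le_or_gt N (a + b) with c1 | c1
        · exact hN _ _ _ c1 (ne _ _ (by omega))
        · rw [h.anti (ne _ _ (by omega)) (ne _ _ (by omega)), hN _ _ _ (by omega) (ne _ _ (by omega)),
            neg_zero]
      simp only [S, mem_filter] at hp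
      obtain ⟨⟨-, -, l'⟩, p1, p2⟩ := hp
      obtain ⟨u, p1⟩ := Nat.exists_eq_add_of_lt p1
      obtain ⟨v, p2⟩ := Nat.exists_eq_add_of_lt p2
      have : i + j = (a + b) * (v + 1) + (c + d) * (u + 1) := by
        zify at e p1 p2 ⊢
        linear_combination (a + b) * p2 + (c + d) * p1 - (i + j) * e
      nlinarith [Nat.zero_le ((a + b) * v), Nat.zero_le ((c + d) * u)]
    | succ n ih =>
      intro a b c d e l
      have a0 : 0 < a := Nat.pos_of_ne_zero (by rintro rfl; simp at e)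
      have d0 : 0 < d := Nat.pos_of_ne_zero (by rintro rfl; simp at e)
      have m : x ^ a * y ^ b * (x ^ c * y ^ d) = x ^ (a + c) * y ^ (b + d) := by ring
      have e1 : a * (b + d) = b * (a + c) + 1 := by linarith
      have cp : (a + c).Coprime (b + d) := Nat.isCoprime_iff_coprime.1
        ⟨-b, a, by zify at e1; push_cast; linear_combination e1⟩
      have k3 : s (1 - x ^ (a + c) * y ^ (b + d)) (-(x ^ a * y ^ b)) =
          ∑ p ∈ S with p = (a + c, b + d), t p := by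
        rw [filter_eq', apply_ite (∑ p ∈ ·, t p), sum_singleton, sum_empty]
        split_ifs with c1
        · exact ht _ _ _ _ (by omega) (by omega) e1
        · exact hN _ _ _ (by simp only [S, mem_filter, mem_product, mem_range] at c1; omega)
            (neg_ne_zero.2 (by positivity))
      rw [h.step (by positivity) (h1 _ _ (by omega)) (h1 _ _ (by omega)) (m ▸ h1 _ _ (by omega)), m,
        ih _ _ _ _ e1 (by omega), ih _ _ _ _ (by linarith) (by omega), k3]
      simp only [sum_filter, ← sum_add_distrib]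
      refine sum_congr rfl fun ⟨i, j⟩ hp => ?_
      have q : (i, j) = (a + c, b + d) ↔ (a + c) * j = (b + d) * i := ⟨fun q => by
        rw [(Prod.mk.inj q).1, (Prod.mk.inj q).2, mul_comm], fun q => by
        have c1 := (mem_filter.1 hp).2.1
        have c2 := Nat.dvd_antisymm (c1.dvd_of_dvd_mul_right ⟨_, q.trans (mul_comm _ _)⟩)
          (cp.dvd_of_dvd_mul_left ⟨_, q.symm⟩)
        rw [← c2, mul_comm] at q
        exact Prod.ext c2 (Nat.eq_of_mul_eq_mul_right (by omega) q)⟩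
      have q' : (a + c) * j = (b + d) * i → b * i < a * j ∧ c * j < d * i := fun r => by
        rw [(Prod.mk.inj (q.2 r)).1, (Prod.mk.inj (q.2 r)).2]; constructor <;> linarith
      simp only [q, add_mul] at q' ⊢
      split_ifs <;> first | omega | simp
  have := k (2 * N) 1 0 0 1 rfl (by omega)
  simp only [pow_one, pow_zero, mul_one, one_mul, zero_mul, S, filter_filter] at this
  exact this.trans (sum_congr (filter_congr fun p _ => by tauto) fun _ _ => rfl)

end Sy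

end Vale.Agent.P014T.Sb
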