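import Vale.Agent.P014T.Sb.Ev
import Vale.Agent.P014T.Ah.Val
import Vale.Agent.P014T.Dc.Sv

/-!
# P014T: the symbol of two Siegel units on the Tate disc
-/

set_option autoImplicit false

open Filter Topology Finset NumberField

noncomputable section

namespace Vale.Agent.P014T.Sb

open Vale.Agent.P022 Vale.Agent.P022K Sy Sy.Fd
open Vale.Agent.P022D.W (dec)
open Vale.Agent.P004S.Ga (K O mem_O)
open Vale.Agent.P004F.Rc (hn mq)
open Ah (Ind am)
open QT.Cu (E E_add E_nat E_zero E_int norm_E)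

theorem hy {ι : Qb →+* ℂ_[2]} {P : Ideal (𝓞 Qb)} (h : Ind ι P) : Hy h.fd am 1 := by
  refine ⟨Ah.nrm_am, fun _ => h.ro_fx, fun X α S n τ a b d tw ha hb e =>
    (near (v := NormedField.toAbsoluteValue ℂ_[2]) d tw ha hb IsUltrametricDist.norm_add_le_max
      (fun g _ x _ => h.ro_nrm g x) fun x hx => (e x hx).trans_eq (by rw [← Ah.two_C]; rfl)).1,
    fun X α S n τ u ζ t n0 d tw hu _ hz ht => ?_⟩
  choose! ε hε using hz
  have m (x) (hx : x ∈ S) : Iv.Un (ε x) := by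
    have a := (hε x hx).2.2
    rw [mem_O, norm_mul, hn, norm_inv, norm_pow, k_two, inv_mul_le_one₀ (by positivity),
      norm_sub_rev] at a
    have := n_one (a.trans_lt (pow_lt_one₀ (by norm_num) (by norm_num) n0.ne'))
    rw [norm_mul] at this
    exact Ah.un_iff.2 (le_antisymm (hε x hx).1
      (this ▸ mul_le_of_le_one_right (norm_nonneg _) (tw.mem x hx)))
  have t0 : t ≠ 0 := fun e =>
    prod_ne_zero_iff.2 (fun x hx => (hu x hx).1) (by rw [← ht, e, map_zero])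
  rw [cg d tw hu (ze_mem (tw_eps d tw (fun x hx => (hε x hx).1) fun x hx => (hε x hx).2.2))
    (fun _ _ => rfl) fun x hx => (hε x hx).2.1, h.s3' d tw hu m (fun x hx => (hε x hx).2.2) ht.symm,
    am.injective ((Ah.am_Lk_sb t0).2.trans (Lg_map k_two am Ah.nrm_am (gd_padic t0)).2.symm), hn,
    pow_add, ← mul_pow]
  congr 1
  norm_num
  ring

theorem sv_lim {C : Type} [NontriviallyNormedField C] [IsUltrametricDist C] [CompleteSpace C]
    (ι : Qb →+* C) {c N a : ℕ} (β : ℚ) {t : C} (ht : ‖t‖ < 1) (hN : 0 < N) (h : c * a % N ≠ 0) :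
    Tendsto (ap c N a (ι (E β)) t) atTop (𝓝 (Dc.sv ι c N a β t)) := by
  have p (a : ℕ) (β : ℚ) : Tendsto (fun k => pp N k a (ι (E β)) t) atTop (𝓝 (Dc.tv ι N a β t)) := by
    have : ι (E (-β)) = (ι (E β))⁻¹ := eq_inv_of_mul_eq_one_left (by
      rw [← map_mul, ← E_add, neg_add_cancel, E_zero, map_one])
    have := (Dc.pv_lim (norm_E ι β).le ht hN a).mul (Dc.pv_lim (norm_E ι (-β)).le ht hN (N - a))
    simp_all [pp, Dc.pn, Dc.tv]
  have := ((((p a β).pow (c ^ 2)).const_mul ((-1) ^ Sg.sx c N a * ι (E (Sg.ux c N a * β)) *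
    t ^ Sg.wx c N a)).div (p _ (c * β)) (Dc.tv_ne ht (Nat.mod_lt _ hN) (.inl (Nat.pos_of_ne_zero h))))
  refine this.congr fun k => ?_
  simp only [ap, Pi.div_apply, Sg.E_zpow, E_nat, map_zpow₀, map_pow, mul_assoc]

end Vale.Agent.P014T.Sb
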