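import Mathlib

/-!
# P014T: Steinberg symbols on a group of units of a ring, expansion of `s (1 - x) (1 - y)`
-/

set_option autoImplicit false

open Finset

namespace Vale.Agent.P014T.Sb

variable {R A : Type} [CommRing R] [AddCommGroup A]

/-- a skew Steinberg symbol on the group of units `G`, written additively -/
structure Sr (G : Submonoid R) (s : R → R → A) : Prop where
  inv : ∀ a ∈ G, ∃ b ∈ G, a * b = 1
  neg : -1 ∈ G
  ml : ∀ a ∈ G, ∀ b ∈ G, ∀ c ∈ G, s (a * b) c = s a c + s b c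
  sk : ∀ a ∈ G, ∀ b ∈ G, s a b = -s b a
  st : ∀ a ∈ G, ∀ b ∈ G, a + b = 1 → s a b = 0

namespace Sr

variable {G : Submonoid R} {s : R → R → A} (h : Sr G s) {a b c : R}
include h

theorem mr (ha : a ∈ G) (hb : b ∈ G) (hc : c ∈ G) : s a (b * c) = s a b + s a c := by
  rw [h.sk _ ha _ (mul_mem hb hc), h.ml _ hb _ hc _ ha, h.sk _ ha _ hb, h.sk _ ha _ hc, neg_add]

theorem neg_mem (ha : a ∈ G) : -a ∈ G := neg_one_mul a ▸ mul_mem h.neg ha

theorem one_l (ha : a ∈ G) : s 1 a = 0 := by simpa using h.ml 1 G.one_mem 1 G.one_mem a ha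

theorem one_r (ha : a ∈ G) : s a 1 = 0 := by simpa using h.mr ha G.one_mem G.one_mem

theorem pow_l (ha : a ∈ G) (hb : b ∈ G) (n : ℕ) : s (a ^ n) b = n • s a b := by
  induction n with
  | zero => simp [h.one_l hb]
  | succ n ih => rw [pow_succ, h.ml _ (pow_mem ha _) _ ha _ hb, ih, succ_nsmul]

theorem pow_r (ha : a ∈ G) (hb : b ∈ G) (n : ℕ) : s a (b ^ n) = n • s a b := by
  induction n with
  | zero => simp [h.one_r ha]
  | succ n ih => rw [pow_succ, h.mr ha (pow_mem hb _) hb, ih, succ_nsmul]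

theorem prod_l {ι : Type} {T : Finset ι} {f : ι → R} (hf : ∀ i ∈ T, f i ∈ G) (hb : b ∈ G) :
    s (∏ i ∈ T, f i) b = ∑ i ∈ T, s (f i) b := by
  induction T using Finset.cons_induction with
  | empty => simp [h.one_l hb]
  | cons i T _ ih =>
    rw [forall_mem_cons] at hf
    rw [prod_cons, sum_cons, h.ml _ hf.1 _ (prod_mem hf.2) _ hb, ih hf.2]

theorem prod_r {ι : Type} {T : Finset ι} {f : ι → R} (ha : a ∈ G) (hf : ∀ i ∈ T, f i ∈ G) :
    s a (∏ i ∈ T, f i) = ∑ i ∈ T, s a (f i) := by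
  induction T using Finset.cons_induction with
  | empty => simp [h.one_r ha]
  | cons i T _ ih =>
    rw [forall_mem_cons] at hf
    rw [prod_cons, sum_cons, h.mr ha hf.1 (prod_mem hf.2), ih hf.2]

theorem neg_r (ha : a ∈ G) (hb : b ∈ G) : s a (-b) = s a b + s a (-1) := by
  rw [← h.mr ha hb h.neg, mul_neg_one]

theorem two (ha : a ∈ G) : s a (-1) + s a (-1) = 0 := by
  rw [← h.neg_r ha h.neg, neg_neg, h.one_r ha]

theorem two' (ha : a ∈ G) : s a a + s a a = 0 := eq_neg_iff_add_eq_zero.1 (h.sk _ ha _ ha)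

theorem self (ha : a ∈ G) (h1 : 1 - a ∈ G) : s a a = s a (-1) := by
  obtain ⟨b, hb, e⟩ := h.inv a ha
  have k : -(b * (1 - a)) ∈ G := h.neg_mem (mul_mem hb h1)
  have e1 := h.st b hb _ k (by linear_combination e)
  have e2 := h.ml _ ha _ hb _ k
  have e3 := h.mr ha ha hb
  rw [e, h.one_l k, e1, add_zero, h.neg_r ha (mul_mem hb h1), h.mr ha hb h1,
    h.st _ ha _ h1 (by ring)] at e2
  rw [e, h.one_r ha] at e3
  linear_combination (norm := abel1) e2 - e3

/-- one step of the expansion -/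
theorem step (ha : a ∈ G) (k1 : 1 - a ∈ G) (k2 : 1 - b ∈ G) (k3 : 1 - a * b ∈ G)
    (k4 : a * b ∈ G) : s (1 - a) (1 - b) =
    s (1 - a) (1 - a * b) + s (1 - a * b) (1 - b) + s (1 - a * b) (-a) := by
  obtain ⟨z, hz, e⟩ := h.inv _ k3
  have k5 := mul_mem (mul_mem ha k2) hz
  have e1 := h.st _ (mul_mem k1 hz) _ k5 (by linear_combination e)
  have e2 := h.ml _ k3 _ hz _ k5
  have e3 := h.mr k1 k3 hz
  have e4 := h.mr k3 k3 hz
  rw [e, h.one_l k5, h.mr k3 (mul_mem ha k2) hz, h.mr k3 ha k2] at e2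
  rw [h.ml _ k1 _ hz _ k5, h.mr k1 (mul_mem ha k2) hz, h.mr k1 ha k2,
    h.st _ k1 _ ha (by ring)] at e1
  rw [e, h.one_r k1] at e3
  rw [e, h.one_r k3, h.self k3 (by simpa using k4)] at e4
  rw [h.neg_r k3 ha]
  linear_combination (norm := abel1) e1 + e2 + e3 - e4 - h.two k3

/-- **the expansion** -/
theorem expand {x y : R} (hx : x ∈ G) (hy : y ∈ G) (ne : ∀ i j : ℕ, 0 < i + j → 1 - x ^ i * y ^ j ∈ G)
    {N : ℕ} (hN : ∀ (i j : ℕ) z, N ≤ i + j → z ∈ G → s (1 - x ^ i * y ^ j) z = 0) (t : ℕ × ℕ → A)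
    (ht : ∀ i j a b : ℕ, 0 < i → 0 < j → a * j = b * i + 1 →
      s (1 - x ^ i * y ^ j) (-(x ^ a * y ^ b)) = t (i, j)) : s (1 - x) (1 - y) =
    ∑ p ∈ range N ×ˢ range N with 0 < p.1 ∧ 0 < p.2 ∧ p.1.Coprime p.2 ∧ p.1 + p.2 < N, t p := by
  set S := (range N ×ˢ range N).filter fun p => p.1.Coprime p.2 ∧ p.1 + p.2 < N
  have g (i j : ℕ) : x ^ i * y ^ j ∈ G := mul_mem (pow_mem hx i) (pow_mem hy j)
  have k (n : ℕ) : ∀ a b c d : ℕ, a * d = b * c + 1 → 2 * N ≤ a + b + c + d + n →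
      s (1 - x ^ a * y ^ b) (1 - x ^ c * y ^ d) =
        ∑ p ∈ S with b * p.1 < a * p.2 ∧ c * p.2 < d * p.1, t p := by
    induction n with
    | zero =>
      intro a b c d e l
      have a0 : 0 < a := Nat.pos_of_ne_zero (by rintro rfl; simp at e)
      have d0 : 0 < d := Nat.pos_of_ne_zero (by rintro rfl; simp at e)
      refine Eq.trans ?_ (sum_eq_zero fun ⟨i, j⟩ hp => ?_).symm
      · rcases le_or_gt N (a + b) with c1 | c1
        · exact hN _ _ _ c1 (ne _ _ (by omega))
        · rw [h.sk _ (ne _ _ (by omega)) _ (ne _ _ (by omega)), hN _ _ _ (by omega) (ne _ _ (by omega)),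
            neg_zero]
      simp only [S, mem_filter] at hp
      obtain ⟨⟨-, -, l'⟩, p1, p2⟩ := hp
      obtain ⟨u, p1⟩ := Nat.exists_eq_add_of_lt p1
      obtain ⟨v, p2⟩ := Nat.exists_eq_add_of_lt p2
      have : i + j = (a + b) * (v + 1) + (c + d) * (u + 1) := by
        zify at e p1 p2 ⊢
        linear_combination (a + b) * p2 + (c + d) * p1 - (i + j) * e
      nlinarith [Nat.zero_le ((a + b) * v), Nat.zero_le ((c + d) * u)]
    | succ n ih =>
      intro a b c d e l
      have a0 : 0 < a := Nat.pos_of_ne_zero (by rintro rfl; simp at e)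
      have d0 : 0 < d := Nat.pos_of_ne_zero (by rintro rfl; simp at e)
      have m : x ^ a * y ^ b * (x ^ c * y ^ d) = x ^ (a + c) * y ^ (b + d) := by ring
      have e1 : a * (b + d) = b * (a + c) + 1 := by linarith
      have cp : (a + c).Coprime (b + d) := Nat.isCoprime_iff_coprime.1
        ⟨-b, a, by zify at e1; push_cast; linear_combination e1⟩
      have k3 : s (1 - x ^ (a + c) * y ^ (b + d)) (-(x ^ a * y ^ b)) =
          ∑ p ∈ S with p = (a + c, b + d), t p := by
        rw [filter_eq', apply_ite (∑ p ∈ ·, t p), sum_singleton, sum_empty]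
        split_ifs with c1
        · exact ht _ _ _ _ (by omega) (by omega) e1
        · exact hN _ _ _ (by simp only [S, mem_filter, mem_product, mem_range] at c1; omega)
            (h.neg_mem (g _ _))
      rw [h.step (g _ _) (ne _ _ (by omega)) (ne _ _ (by omega)) (m ▸ ne _ _ (by omega))
        (m ▸ g _ _), m,
        ih _ _ _ _ e1 (by omega), ih _ _ _ _ (by linarith) (by omega), k3]
      simp only [sum_filter, ← sum_add_distrib]
      refine sum_congr rfl fun ⟨i, j⟩ hp => ?_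
      have q : (i, j) = (a + c, b + d) ↔ (a + c) * j = (b + d) * i := ⟨fun q => by
        rw [(Prod.mk.inj q).1, (Prod.mk.inj q).2, mul_comm], fun q => by
        have c1 := (mem_filter.1 hp).2.1
        have c2 := Nat.dvd_antisymm (c1.dvd_of_dvd_mul_right ⟨_, q.trans (mul_comm _ _)⟩)
          (cp.dvd_of_dvd_mul_left ⟨_, q.symm⟩)
        rw [← c2, mul_comm] at q
        exact Prod.ext c2 (Nat.eq_of_mul_eq_mul_right (by omega) q)⟩
      have q' : (a + c) * j = (b + d) * i → b * i < a * j ∧ c * j < d * i := fun r => by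
        rw [(Prod.mk.inj (q.2 r)).1, (Prod.mk.inj (q.2 r)).2]; constructor <;> linarith
      simp only [q, add_mul] at q' ⊢
      split_ifs <;> first | omega | simp
  have := k (2 * N) 1 0 0 1 rfl (by omega)
  simp only [pow_one, pow_zero, mul_one, one_mul, zero_mul, S, filter_filter] at this
  exact this.trans (sum_congr (filter_congr fun p _ => by tauto) fun _ _ => rfl)

end Sr

end Vale.Agent.P014T.Sb
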