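import Vale.Agent.P014T.Sb.Lm
import Vale.Agent.P014T.Sy.Sym

/-!
# P014T: the value of the symbols of `1 - w`
-/

set_option autoImplicit false

open Filter Topology Finset

noncomputable section

namespace Vale.Agent.P014T.Sb

open Vale.Agent.P022 Vale.Agent.P022K Sy Sy.Fd
open Vale.Agent.P004S.Ga (K O mem_O)
open Vale.Agent.P004S.Aq
open Vale.Agent.P004F.Rc (hn hn_mul O_nat mq mq_eq)

variable {C : Type} [NormedField C] {j : K →+* C}

/-- the class `z` is represented by `y` -/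
def Vl (j : K →+* C) (z : K ⧸ O) (y : C) : Prop := ∃ θ, j θ = y ∧ z = mq θ

/-- the class `z` is represented by `y` up to `δ` -/
def Ap (j : K →+* C) (δ : ℝ) (z : K ⧸ O) (y : C) : Prop := ∃ θ, ‖j θ - y‖ ≤ δ ∧ z = mq θ

variable {z z' : K ⧸ O} {y y' : C} {δ : ℝ}

theorem Vl.of (h : Vl j z y) (e : z' = z) (e' : y' = y) : Vl j z' y' := e ▸ e' ▸ h

theorem vl_zero : Vl j 0 0 := ⟨0, map_zero _, (map_zero _).symm⟩

theorem Vl.add (h : Vl j z y) (k : Vl j z' y') : Vl j (z + z') (y + y') :=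
  let ⟨a, p, q⟩ := h
  let ⟨b, p', q'⟩ := k
  ⟨a + b, by rw [map_add, p, p'], by rw [map_add, q, q']⟩

theorem Vl.zsmul (h : Vl j z y) (m : ℤ) : Vl j (m • z) (m * y) :=
  let ⟨a, p, q⟩ := h
  ⟨m * a, by rw [map_mul, p, map_intCast], by rw [q, ← zsmul_eq_mul, map_zsmul]⟩

theorem Vl.nsmul (h : Vl j z y) (m : ℕ) : Vl j (m • z) (m * y) := by simpa using h.zsmul m

theorem Vl.neg (h : Vl j z y) : Vl j (-z) (-y) := by simpa using h.zsmul (-1)

theorem Vl.sum {I : Type} {J : Finset I} {z : I → K ⧸ O} {y : I → C}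
    (h : ∀ i ∈ J, Vl j (z i) (y i)) : Vl j (∑ i ∈ J, z i) (∑ i ∈ J, y i) := by
  induction J using Finset.cons_induction with
  | empty => exact vl_zero
  | cons i J _ ih =>
    rw [forall_mem_cons] at h
    rw [sum_cons, sum_cons]
    exact h.1.add (ih h.2)

theorem k_two : ‖(2 : K)‖ = 1 / 2 := by simpa using Padic.norm_p (p := 2)

theorem Vl.odd {m : ℕ} (hm : Odd m) (h : Vl j (m • z) y) : Vl j z (y / m) := by
  obtain ⟨a, p, q⟩ := h
  obtain ⟨b, rfl⟩ := QuotientAddGroup.mk'_surjective O z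
  have n := n_odd k_two hm
  have m0 : (m : K) ≠ 0 := Nat.cast_ne_zero.2 hm.pos.ne'
  refine ⟨a / m, by rw [map_div₀, p, map_natCast], mq_eq.2 ?_⟩
  have : m • b - a ∈ O := mq_eq.1 ((map_nsmul mq m b).trans q)
  rwa [show b - a / m = (m • b - a) / m by rw [nsmul_eq_mul]; field_simp, mem_O, norm_div, n,
    div_one]

theorem Vl.ap (h : Vl j z y) (h0 : 0 ≤ δ) : Ap j δ z y :=
  h.imp fun _ k => ⟨by simpa [k.1] using h0, k.2⟩

theorem Ap.add [IsUltrametricDist C] (h : Ap j δ z y) (k : Ap j δ z' y') :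
    Ap j δ (z + z') (y + y') :=
  let ⟨a, p, q⟩ := h
  let ⟨b, p', q'⟩ := k
  ⟨a + b, by rw [map_add, add_sub_add_comm]; exact nadd p p', by rw [map_add, q, q']⟩

theorem Vl.lim [IsUltrametricDist C] (hj : ∀ x, ‖j x‖ = ‖x‖) (h : ∀ δ > 0, Ap j δ z y) :
    Vl j z y := by
  obtain ⟨θ, rfl⟩ : y ∈ Set.range j := by
    rw [← (AddMonoidHomClass.isometry_of_norm j hj).isClosedEmbedding.isClosed_range.closure_eq,
      Metric.mem_closure_iff]
    intro ε e
    obtain ⟨θ, p, -⟩ := h (ε / 2) (by linarith)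
    exact ⟨_, ⟨θ, rfl⟩, by rw [dist_comm, dist_eq_norm]; linarith⟩
  obtain ⟨θ', p, q⟩ := h 1 one_pos
  exact ⟨θ, rfl, q.trans (mq_eq.2 (by rwa [mem_O, ← hj, map_sub]))⟩

/-- `ζ` is the root of unity dual to the twist `τ` -/
def Zr (F : Fd C) {X : Type} (S : Finset X) (n : ℕ) (τ : X → K) (ζ : X → C) : Prop :=
  ∀ x ∈ S, ∃ ε ∈ O, ζ x = F.e (ex (hn n * ε)) ∧ hn n * (ε * τ x - 1) ∈ O

variable [IsAlgClosed C]

/-- what is used of the field and of the invariant -/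
structure Hy (F : Fd C) (j : K →+* C) (σ : K) : Prop where
  nj : ∀ x, ‖j x‖ = ‖x‖
  fx : ∀ a ∈ F.A, (∀ g ∈ F.D, F.ρ g a = a) → ∃ t, j t = a
  s5 : ∀ (X : Type) (α : GQ → X → X) S n τ a b, Ds F.D α S → Tw F.D α S n τ → a ∈ F.G α S →
    b ∈ F.G α S → (∀ x ∈ S, ‖a x - 1‖ < (1 / 2) ^ (n + 1)) → F.sym α S n τ a b = 0
  s3 : ∀ (X : Type) (α : GQ → X → X) S n τ u ζ t, 0 < n → Ds F.D α S → Tw F.D α S n τ →
    u ∈ F.G α S → ζ ∈ F.G α S → Zr F S n τ ζ → j t = ∏ x ∈ S, u x →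
    2 • F.sym α S n τ u ζ = mq (2 * σ * Lg t / 4 ^ n)

variable {F : Fd C} {σ : K} {X : Type} {α : GQ → X → X} {S : Finset X} {n : ℕ} {τ : X → K}
  {a b f v w η ζ : X → C} {κ : ℤ}

theorem Hy.two (H : Hy F j σ) : ‖(2 : C)‖ = 1 / 2 := by rw [← k_two, ← H.nj, map_ofNat]

omit [IsAlgClosed C] in
theorem G_zpow (ha : a ∈ F.G α S) (m : ℤ) : a ^ m ∈ F.G α S := by
  cases m <;> simp [pow_mem ha, G_inv (pow_mem ha _)]

omit [IsAlgClosed C] in
theorem G_one_sub (ha : a ∈ F.G α S) (h : ∀ x ∈ S, a x ≠ 1) : 1 - a ∈ F.G α S := fun x hx =>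
  ⟨sub_ne_zero.2 (h x hx).symm, sub_mem (one_mem _) (ha x hx).2.1, fun g hg => by
    rw [Pi.sub_apply, map_sub, (ha x hx).2.2 g hg, Pi.one_apply, map_one]; rfl⟩

section

variable (d : Ds F.D α S) (tw : Tw F.D α S n τ)
include d tw

theorem cg {a' b' : X → C} (ha : a ∈ F.G α S) (hb : b ∈ F.G α S) (e : ∀ x ∈ S, a' x = a x)
    (e' : ∀ x ∈ S, b' x = b x) : F.sym α S n τ a' b' = F.sym α S n τ a b :=
  sym_congr d tw ha hb e e' tw fun _ _ => by simp

theorem inv_l (ha : a ∈ F.G α S) (hb : b ∈ F.G α S) :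
    F.sym α S n τ a⁻¹ b = -F.sym α S n τ a b := by
  rw [eq_neg_iff_add_eq_zero, ← ml d tw (G_inv ha) hb ha]
  exact triv_l d tw (mul_mem (G_inv ha) ha) hb (one_mem _) fun x hx => by simp [(ha x hx).1]

theorem inv_r (ha : a ∈ F.G α S) (hb : b ∈ F.G α S) :
    F.sym α S n τ a b⁻¹ = -F.sym α S n τ a b := by
  rw [anti d tw ha (G_inv hb), inv_l d tw hb ha, anti d tw ha hb]

theorem sym_int (ha : a ∈ F.G α S) (hb : b ∈ F.G α S) (m : ℤ) :
    F.sym α S n (fun x => m * τ x) a b = m • F.sym α S n τ a b := by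
  have s {c : K} (hc : c ∈ O) : Tw F.D α S n fun x => c * τ x := ⟨fun x hx => O_mul hc (tw.mem x hx),
    fun g hg x hx => O_of (O_mul hc (tw.eq g hg x hx)) (by ring)⟩
  obtain ⟨m, rfl | rfl⟩ := m.eq_nat_or_neg
  · simpa using sym_nat d tw ha hb m
  have := sym_tau d (s (O_nat m)) ha hb (s (neg_mem (O_nat m)))
  rw [show ((fun x => m * τ x) + fun x => -m * τ x) = fun x => (0 : ℕ) * τ x by ext; simp,
    sym_nat d tw ha hb, sym_nat d tw ha hb, zero_nsmul, eq_comm, add_comm,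
    ← eq_neg_iff_add_eq_zero] at this
  simpa using this

/-- one step of the expansion -/
theorem step (ha : a ∈ F.G α S) (k1 : 1 - a ∈ F.G α S) (k2 : 1 - b ∈ F.G α S)
    (k3 : 1 - a * b ∈ F.G α S) : 2 • F.sym α S n τ (1 - a) (1 - b) =
    2 • F.sym α S n τ (1 - a) (1 - a * b) + 2 • F.sym α S n τ (1 - a * b) (1 - b) +
      2 • F.sym α S n τ (1 - a * b) a := by
  have i := G_inv k3
  have k4 := mul_mem ha k2
  have k5 := mul_mem k4 i
  have e := st0 (c := 1) d tw k5 (fun _ _ => ⟨one_mem _, fun _ _ => map_one _⟩)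
    (fun x hx => (mul_mem k1 i x hx).1) fun x hx => by
      have := (k3 x hx).1
      simp only [Pi.mul_apply, Pi.sub_apply, Pi.one_apply, Pi.inv_apply, one_pow] at this ⊢
      field_simp
      ring
  rw [ml d tw k1 k5 i, inv_l d tw k3 k5, mr d tw k1 k4 i, mr d tw k3 k4 i, mr d tw k1 ha k2,
    mr d tw k3 ha k2, inv_r d tw k1 k3, inv_r d tw k3 k3, st d tw ha k1] at e
  linear_combination (norm := abel1) 2 • e - skew d tw k3 k3

end

variable [IsUltrametricDist C] [CompleteSpace C] [CharZero C] (H : Hy F j σ) (d : Ds F.D α S)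
  (tw : Tw F.D α S n τ) (n0 : 0 < n) (hz : Zr F S n τ ζ) (hκ : Odd κ)
include H d tw n0 hz hκ

theorem core (hf : f ∈ F.G α S) (gd : ∀ x ∈ S, Gd (f x)) (hη : η ∈ F.G α S) {e : ℕ} (he : 0 < e)
    (h : ∀ x ∈ S, η x ^ 2 ^ e = ζ x ^ κ) :
    Vl j (F.sym α S n τ f η) (j σ * κ * (∑ x ∈ S, Lg (f x)) / (2 ^ e * 4 ^ n)) := by
  choose! ε hε using hz
  have k1 : ‖(κ : K)‖ = 1 := by
    simpa using n_odd k_two (Int.natAbs_odd.2 hκ)
  have kO : (κ : K) ∈ O := k1.le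
  have zp (x) (hx : x ∈ S) : ζ x ^ κ = F.e (ex (κ * (hn n * ε x))) := by
    rw [(hε x hx).2.1]
    obtain ⟨m, rfl | rfl⟩ := κ.eq_nat_or_neg <;> simp [ex_nat, ex_neg]
  have r (x) (hx : x ∈ S) : η x ^ 2 ^ (n + e) = 1 := by
    rw [pow_add, mul_comm, pow_mul, h x hx, zp x hx, F.ex_rt]
    exact O_of (O_mul kO (hε x hx).1) (by linear_combination (κ * ε x) * hn_mul n)
  set y := fun x => 2 ^ (n + e) * F.lg (η x)
  have y1 (x) (hx : x ∈ S) : η x = F.e (ex (hn (n + e) * y x)) := by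
    rw [← mul_assoc, mul_comm (hn _), hn_mul, one_mul, F.ex_lg (r x hx)]
  have y2 (x) (hx : x ∈ S) : hn n * (y x - κ * ε x) ∈ O := by
    have := h x hx
    rw [zp x hx, y1 x hx, ← map_pow, ← ex_nat, F.e.injective.eq_iff, ex_eq] at this
    refine O_of this ?_
    push_cast
    linear_combination (-y x) * hn_add n e
  have nn {c : K} (hc : hn n * c ∈ O) : ‖c‖ < 1 := by
    rw [mem_O, norm_mul, hn, norm_inv, norm_pow, k_two, inv_mul_le_one₀ (by positivity)] at hc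
    exact hc.trans_lt (pow_lt_one₀ (by norm_num) (by norm_num) n0.ne')
  have y3 (x) (hx : x ∈ S) : hn n * (τ x * y x - κ) ∈ O :=
    O_of (add_mem (O_mul (tw.mem x hx) (y2 x hx)) (O_mul kO (hε x hx).2.2)) (by ring)
  have yO (x) (hx : x ∈ S) : y x ∈ O := F.ex_rt.1 (by rw [F.ex_lg (r x hx), r x hx])
  have y4 (x) (hx : x ∈ S) : y x ≠ 0 ∧ (y x)⁻¹ ∈ O := by
    have k0 : (κ : K) ≠ 0 := norm_ne_zero_iff.1 (by simp [k1])
    have := n_one (x := τ x * y x / κ) (by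
      rw [one_sub_div k0, norm_div, k1, div_one, norm_sub_rev]; exact nn (y3 x hx))
    rw [norm_div, k1, div_one, norm_mul] at this
    have l : 1 ≤ ‖y x‖ := this ▸ mul_le_of_le_one_left (norm_nonneg _) (tw.mem x hx)
    exact ⟨norm_pos_iff.1 (by linarith), by rw [mem_O, norm_inv]; exact inv_le_one_of_one_le₀ l⟩
  have t' : Tw F.D α S (n + e) fun x => (y x)⁻¹ := ⟨fun x hx => (y4 x hx).2, fun g hg x hx => by
    have m := d.mem g hg x hx
    have := (hη x hx).2.2 g hg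
    rw [y1 x hx, y1 _ m, F.ex_act hg, F.e.injective.eq_iff, ex_eq] at this
    refine O_of (O_mul (O_mul (y4 x hx).2 (y4 _ m).2) this) ?_
    have := (y4 x hx).1
    have := (y4 _ m).1
    field_simp⟩
  have t'' := t'.down (Nat.le_add_right n e)
  obtain ⟨t, ht⟩ := H.fx (∏ x ∈ S, f x) (prod_mem fun x hx => (hf x hx).2.1) fun g hg => by
    rw [map_prod, ← d.prod hg f]
    exact prod_congr rfl fun x hx => (hf x hx).2.2 g hg
  have t0 : t ≠ 0 := fun e => prod_ne_zero_iff.2 (fun x hx => (hf x hx).1) (by rw [← ht, e, map_zero])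
  obtain ⟨e, rfl⟩ := Nat.exists_eq_add_of_lt he
  refine ⟨σ * κ * Lg t / (2 ^ (0 + e + 1) * 4 ^ n), ?_, ?_⟩
  · simp [(Lg_map k_two j H.nj (gd_padic t0)).2, ht, (Lg_prod H.two gd).2, map_ofNat]
  rw [← sym_congr d tw hf hη (fun _ _ => rfl) (fun _ _ => rfl) (τ' := fun x => κ * (y x)⁻¹)
    ⟨fun x hx => O_mul kO (t''.mem x hx), fun g hg x hx =>
      O_of (O_mul kO (t''.eq g hg x hx)) (by ring)⟩ fun x hx =>
      O_of (O_mul (neg_mem (y4 x hx).2) (y3 x hx)) (by have := (y4 x hx).1; field_simp; ring),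
    sym_int d t'' hf hη, level d t' hf hη, pow_succ, mul_nsmul', H.s3 _ α S _ _ f η t (by omega) d t'
      hf hη (fun x hx => ⟨y x, yO x hx, y1 x hx, by simp [(y4 x hx).1]⟩) ht, ← map_nsmul,
    ← map_zsmul, nsmul_eq_mul, zsmul_eq_mul, show (4 : K) = 2 * 2 by norm_num, mul_pow, mul_pow]
  congr 1
  push_cast
  field_simp
  ring

/-- the second entry is a root of unity -/
theorem root (hf : f ∈ F.G α S) (gd : ∀ x ∈ S, Gd (f x)) (hv : v ∈ F.G α S) {m : ℕ} (h0 : 0 < m)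
    (hm : Even m) (h : ∀ x ∈ S, v x ^ m = ζ x ^ κ) :
    Vl j (F.sym α S n τ f v) (j σ * κ * (∑ x ∈ S, Lg (f x)) / (m * 4 ^ n)) := by
  obtain ⟨e, m, o, rfl⟩ := Nat.exists_eq_two_pow_mul_odd h0.ne'
  have := core H d tw n0 hz hκ hf gd (pow_mem hv m) (e := e) (Nat.pos_of_ne_zero fun c =>
    Nat.not_even_iff_odd.2 o (by simpa [c] using hm)) fun x hx => by
      rw [Pi.pow_apply, ← pow_mul, mul_comm, h x hx]
  rw [pow_r d tw hf hv] at this
  exact (this.odd o).of rfl (by push_cast; ring)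

/-- the value of one term -/
theorem term (hw : w ∈ F.G α S) (sm : ∀ x ∈ S, ‖w x‖ < 1) (hv : v ∈ F.G α S) {m m' : ℕ}
    (h0 : 0 < m) (hm : Even m) (h : ∀ x ∈ S, v x ^ m = w x ^ m' * ζ x ^ κ) :
    Vl j (F.sym α S n τ (1 - w) v) (j σ * κ * (∑ x ∈ S, lgs (1 - w x)) / (m * 4 ^ n)) := by
  classical
  obtain ⟨e, m, o, rfl⟩ := Nat.exists_eq_two_pow_mul_odd h0.ne'
  have p := rs_mp (F := F) (α := α) (S := S) (a := w) e
  have d' := rs_ds d hw e
  have t' := tw.pull p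
  have s := rs_snd hw e
  have sm' (q) (hq : q ∈ Rs S e w) : ‖1 - (1 - q.2)‖ < 1 := by
    have := sm _ (mem_rs.1 hq).1
    rw [← (mem_rs.1 hq).2, norm_pow] at this
    rw [sub_sub_cancel]
    exact lt_of_pow_lt_pow_left₀ _ zero_le_one (by rwa [one_pow])
  have u := G_one_sub s fun q hq c => by simpa [c] using sm' q hq
  have v' := G_pull hv p
  have pr (x) (hx : x ∈ S) : (1 - w) x = ∏ q ∈ Rs S e w with q.1 = x, (1 - q.2) := by
    rw [F.rs_prod hx (hw x hx).1, one_pow]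
    rfl
  have := core H d' t' n0 (ζ := ζ ∘ Prod.fst) (fun q hq => hz _ (p.mem q hq)) hκ u
    (fun q hq => (Lg_near H.two (sm' q hq)).1) (mul_mem (pow_mem v' m) (G_inv (pow_mem s m')))
    (e := e) (Nat.pos_of_ne_zero fun c => Nat.not_even_iff_odd.2 o (by simpa [c] using hm))
    fun q hq => by
      have k := mem_rs.1 hq
      simp only [Pi.mul_apply, Pi.pow_apply, Pi.inv_apply, Function.comp]
      rw [mul_pow, ← pow_mul, mul_comm m, h _ k.1, inv_pow, pow_right_comm, k.2, mul_comm,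
        inv_mul_cancel_left₀ (pow_ne_zero _ (hw _ k.1).1)]
  rw [mr d' t' u (pow_mem v' m) (G_inv (pow_mem s m')), inv_r d' t' u (pow_mem s m'),
    pow_r d' t' u s, st d' t' s u, pow_r d' t' u v', (prj p d d' tw u hv pr).2, nsmul_zero,
    neg_zero, add_zero, ← sum_fiberwise_of_maps_to p.mem] at this
  refine (this.odd o).of rfl ?_
  rw [sum_congr rfl fun x hx => ?_]
  · push_cast
    ring
  · rw [← (Lg_near H.two (by simpa using sm x hx)).2]
    exact (congrArg Lg (pr x hx)).trans (Lg_prod H.two fun q hq =>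
      (Lg_near H.two (sm' q (mem_filter.1 hq).1)).1).2

omit H d tw n0 hz hκ [IsAlgClosed C] [IsUltrametricDist C] [CompleteSpace C] [CharZero C] in
/-- `w = η t ^ R` -/
def Mo (F : Fd C) (α : GQ → X → X) (S : Finset X) (t η : X → C) (R : ℕ) (w : X → C) : Prop :=
  w ∈ F.G α S ∧ ∀ x ∈ S, ‖η x‖ ≤ 1 ∧ w x = η x * t x ^ R

variable {t η' : X → C} {M R R' : ℕ} (ht : ∀ x ∈ S, ‖t x‖ < 1) (M0 : 0 < M) (hM : Even M)
include ht

omit H d tw n0 hz hκ [IsAlgClosed C] [IsUltrametricDist C] [CompleteSpace C] [CharZero C] in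
theorem Mo.le (h : Mo F α S t η R w) {x : X} (hx : x ∈ S) {N : ℕ} (e : N ≤ R) :
    ‖w x‖ ≤ ‖t x‖ ^ N := by
  rw [(h.2 x hx).2, norm_mul, norm_pow]
  exact (mul_le_of_le_one_left (by positivity) (h.2 x hx).1).trans
    (pow_le_pow_of_le_one (norm_nonneg _) (ht x hx).le e)

omit H d tw n0 hz hκ [IsAlgClosed C] [IsUltrametricDist C] [CompleteSpace C] [CharZero C] in
theorem Mo.lt (h : Mo F α S t η R w) (h0 : 0 < R) :
    (∀ x ∈ S, ‖w x‖ < 1) ∧ 1 - w ∈ F.G α S :=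
  have k := fun x hx => (h.le ht hx h0).trans_lt (by simpa using ht x hx)
  ⟨k, G_one_sub h.1 fun x hx c => by simpa [c] using k x hx⟩

include M0 hM

theorem tm (hw : Mo F α S t η R w) (hv : Mo F α S t η' R' v) (h0 : 0 < R)
    (h : ∀ x ∈ S, (η' x ^ R) ^ M = (η x ^ R') ^ M * ζ x ^ κ) :
    Vl j (F.sym α S n τ (1 - w) v)
      (-(j σ / (M * 4 ^ n) * κ * ∑ x ∈ S, Lm (t x) (Hs (η x) R))) := by
  refine (term H d tw n0 hz hκ hw.1 (hw.lt ht h0).1 hv.1 (m' := R' * M) (mul_pos h0 M0)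
    (hM.mul_left R) fun x hx => ?_).of rfl ?_
  · rw [(hw.2 x hx).2, (hv.2 x hx).2, mul_pow, mul_pow, pow_mul, h x hx]
    ring
  · rw [sum_congr rfl fun x hx => by rw [Lm_Hs h0, ← (hw.2 x hx).2], ← sum_div, sum_neg_distrib]
    push_cast
    ring

/-- the symbol of `1 - w` and `1 - v` -/
theorem tt (hw : Mo F α S t η R w) (hv : Mo F α S t η' R' v) (h0 : 0 < R) (h0' : 0 < R')
    (h : ∀ x ∈ S, (η' x ^ R) ^ M = (η x ^ R') ^ M * ζ x ^ κ) :
    Vl j (2 • F.sym α S n τ (1 - w) (1 - v))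
      (2 * (j σ / (M * 4 ^ n) * κ) * ∑ x ∈ S, Lm (t x) (Hs (η x) R * Hs (η' x) R')) := by
  refine Vl.lim H.nj fun δ d0 => ?_
  set c := 2 * (j σ / (M * 4 ^ n) * κ) with hc
  obtain ⟨N, h1, h2⟩ := (((eventually_all_finset S).2 fun x hx =>
    Lm_small H.two (ht x hx) (div_pos d0 (by positivity : 0 < ‖c‖ + 1))).and
    ((eventually_all_finset S).2 fun x hx => (tendsto_pow_atTop_nhds_zero_of_lt_one (norm_nonneg _)
      (ht x hx)).eventually_lt_const (by positivity : (0 : ℝ) < (1 / 2) ^ (n + 1)))).exists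
  have z0 (x) (hx : x ∈ S) : ζ x ^ κ ≠ 0 :=
    zpow_ne_zero _ ((hz x hx).elim fun _ e => e.2.1 ▸ F.ex_nz _)
  obtain ⟨k, l⟩ : ∃ k, 2 * N ≤ R + R' + k := ⟨2 * N, by omega⟩
  induction k generalizing R R' η η' w v with
  | zero =>
    have a := (hw.lt ht h0).2
    have b := (hv.lt ht h0').2
    refine ⟨0, ?_, ?_⟩
    · rw [map_zero, zero_sub, norm_neg, norm_mul]
      refine (mul_le_mul_of_nonneg_left (IsUltrametricDist.norm_sum_le_of_forall_le_of_nonneg
        (by positivity) fun x hx => h1 x hx _ (mul_mem (Hs_ig (hw.2 x hx).1 _)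
          (Hs_ig (hv.2 x hx).1 _)) ((pow_dvd_pow _ (show N ≤ R + R' by omega)).trans
            ((pow_add _ R R').dvd.trans (mul_dvd_mul (Hs_dvd h0) (Hs_dvd h0')))))
        (norm_nonneg _)).trans ?_
      rw [mul_div_assoc', div_le_iff₀ (by positivity)]
      linarith
    rcases le_or_gt N R with e | e
    · rw [H.s5 _ α S n τ _ _ d tw a b fun x hx => by
        simpa using (hw.le ht hx e).trans_lt (h2 x hx), nsmul_zero, map_zero]
    · rw [anti d tw a b, H.s5 _ α S n τ _ _ d tw b a fun x hx => by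
        simpa using (hv.le ht hx (by omega)).trans_lt (h2 x hx), neg_zero, nsmul_zero, map_zero]
  | succ k ih =>
    have m : Mo F α S t (η * η') (R + R') (w * v) := ⟨mul_mem hw.1 hv.1, fun x hx =>
      ⟨(norm_mul_le _ _).trans (mul_le_one₀ (hw.2 x hx).1 (norm_nonneg _) (hv.2 x hx).1), by
        rw [Pi.mul_apply, (hw.2 x hx).2, (hv.2 x hx).2, Pi.mul_apply]; ring⟩⟩
    have p := add_pos h0 h0'
    have e := ((ih hw m h0 p (fun x hx => by rw [Pi.mul_apply, mul_pow, mul_pow, h x hx]; ring)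
      (by omega)).add (ih m hv p h0' (fun x hx => by
        rw [Pi.mul_apply, pow_add, mul_pow, h x hx]; ring) (by omega))).add
      (((tm H d tw n0 hz hκ.neg ht M0 hM m hw p fun x hx => by
        rw [Pi.mul_apply, mul_pow, mul_pow, h x hx, zpow_neg, mul_assoc, mul_assoc,
          mul_inv_cancel₀ (z0 x hx)]; ring).nsmul 2).ap d0.le)
    rw [← step d tw hw.1 (hw.lt ht h0).2 (hv.lt ht h0').2 (m.lt ht p).2] at e
    refine (congrArg _ ?_).mp e
    rw [sum_congr rfl fun x hx => (congrArg (Lm (t x)) (Hs_step h0 h0')).trans (by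
      have a := Hs_ig (hw.2 x hx).1 R
      have b := Hs_ig (hv.2 x hx).1 R'
      have c := Hs_ig (m.2 x hx).1 (R + R')
      exact (Lm_add H.two (ht x hx) (add_mem (mul_mem a c) (mul_mem c b)) c).trans
        (congrArg (· + _) (Lm_add H.two (ht x hx) (mul_mem a c) (mul_mem c b)))),
      sum_add_distrib, sum_add_distrib, hc]
    push_cast
    ring

end Vale.Agent.P014T.Sb
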